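import Vale.Agent.P113.Comp

/-! Explicit smooth functions with computable derivatives. -/

open Set Filter Topology

namespace Vale.Agent.P113

/-- The flat functions `s⁻ⁱ exp (-1/s)`. -/
noncomputable def fE (i : ℕ) (s : ℝ) : ℝ := s⁻¹ ^ i * expNegInvGlue s

theorem hasDerivAt_fE (i : ℕ) (s : ℝ) :
    HasDerivAt (fE i) (fE (i + 2) s - i * fE (i + 1) s) s := by
  have h := expNegInvGlue.hasDerivAt_polynomial_eval_inv_mul (Polynomial.X ^ i) s
  have e1 : (fun x : ℝ => (Polynomial.X ^ i : Polynomial ℝ).eval x⁻¹ * expNegInvGlue x) = fE i := by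
    ext x; simp [fE]
  rw [e1] at h
  convert h using 1
  simp only [fE, Polynomial.derivative_X_pow, Polynomial.eval_mul, Polynomial.eval_pow,
    Polynomial.eval_X, Polynomial.eval_sub, Polynomial.eval_C]
  cases i with
  | zero => simp
  | succ i => simp only [Nat.add_sub_cancel]; ring

theorem fE_of_nonpos (i : ℕ) {s : ℝ} (hs : s ≤ 0) : fE i s = 0 := by
  simp [fE, expNegInvGlue.zero_of_nonpos hs]

theorem hasDerivAt_fE_rev (j : ℕ) (s : ℝ) :
    HasDerivAt (fun t => fE j (1 - t)) (-fE (j + 2) (1 - s) + j * fE (j + 1) (1 - s)) s := by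
  have h := (hasDerivAt_fE j (1 - s)).comp s ((hasDerivAt_id s).const_sub 1)
  exact h.congr_deriv (by ring)

theorem cfam_fE : CFam fun p : N × ℕ => fE p.2 (val p.1) := by
  have h1 : CFam fun p : N × ℕ => val (powN (invN p.1) p.2) * Real.exp (val (negN (invN p.1))) :=
    (CFam.exact (by fun_prop)).mul (CFam.exp.comp (f := fun p : N × ℕ => negN (invN p.1))
      (by fun_prop))
  refine (CFam.cond (c := fun p : N × ℕ => Nat.blt p.1.2.1 p.1.1) (by fun_prop) h1
    CFam.zero).congr fun p => ?_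
  by_cases h : p.1.2.1 < p.1.1
  · have h2 : Nat.blt p.1.2.1 p.1.1 = true := by simpa [Nat.blt_eq] using h
    have h3 := (val_pos_iff p.1).2 h
    rw [h2, cond_true, val_powN, val_negN, val_invN _ h, fE, expNegInvGlue, if_neg (not_le.2 h3)]
  · have h2 : Nat.blt p.1.2.1 p.1.1 = false := by
      rw [← Bool.not_eq_true, Nat.blt_eq]; exact h
    have h3 : val p.1 ≤ 0 := not_lt.1 fun h' => h ((val_pos_iff p.1).1 h')
    rw [h2, cond_false, fE_of_nonpos _ h3]

theorem cfam_fE_rev : CFam fun p : N × ℕ => fE p.2 (1 - val p.1) :=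
  (cfam_fE.comp (f := fun p : N × ℕ => (addN (natN 1) (negN p.1), p.2)) (by fun_prop)).congr
    fun p => by simp [sub_eq_add_neg]

/-- One-sided family. -/
noncomputable def fU (j : ℕ) (t : ℝ) : ℝ := Real.exp 1 * fE j (1 - t)

def dU (j : ℕ) : List (N × ℕ) := [(negN (natN 1), j + 2), (natN j, j + 1)]

theorem hasDerivAt_fU (j : ℕ) (s : ℝ) : HasDerivAt (fU j) (evalL fU (dU j) s) s := by
  have h := (hasDerivAt_fE_rev j s).const_mul (Real.exp 1)
  refine h.congr_deriv ?_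
  simp [evalL, dU, fU]
  ring

theorem cfam_fU : CFam fun p : N × ℕ => fU p.2 (val p.1) :=
  ((CFam.exp.comp (f := fun _ : N × ℕ => natN 1) (by fun_prop)).mul cfam_fE_rev).congr
    fun p => by simp [fU]

/-- Two-sided family. -/
noncomputable def fB (b : ℕ × ℕ) (s : ℝ) : ℝ := fE b.1 s * fE b.2 (1 - s)

def dB (b : ℕ × ℕ) : List (N × ℕ × ℕ) :=
  [(natN 1, b.1 + 2, b.2), (negN (natN b.1), b.1 + 1, b.2), (negN (natN 1), b.1, b.2 + 2),
    (natN b.2, b.1, b.2 + 1)]

theorem hasDerivAt_fB (b : ℕ × ℕ) (s : ℝ) : HasDerivAt (fB b) (evalL fB (dB b) s) s := by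
  have h := (hasDerivAt_fE b.1 s).fun_mul (hasDerivAt_fE_rev b.2 s)
  refine h.congr_deriv ?_
  simp [evalL, dB, fB]
  ring

theorem cfam_fB : CFam fun p : N × ℕ × ℕ => fB p.2 (val p.1) :=
  (cfam_fE.comp (f := fun p : N × ℕ × ℕ => (p.1, p.2.1)) (by fun_prop)).mul
    (cfam_fE_rev.comp (f := fun p : N × ℕ × ℕ => (p.1, p.2.2)) (by fun_prop))

/-- A bump supported in `[0, 1]`. -/
noncomputable def bump : ℝ → ℝ := fB (0, 0)

/-- A function equal to one at `0`, with zero derivative there, vanishing on `[1, ∞)`. -/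
noncomputable def ramp : ℝ → ℝ := fU 1

theorem contDiff_bump : ContDiff ℝ (⊤ : ℕ∞) bump := contDiff_fam hasDerivAt_fB _

theorem contDiff_ramp : ContDiff ℝ (⊤ : ℕ∞) ramp := contDiff_fam hasDerivAt_fU _

theorem cfam_bump : CFam fun p : N × ℕ => iteratedDeriv p.2 bump (val p.1) :=
  CFam.iteratedDeriv (by unfold dB; fun_prop) hasDerivAt_fB cfam_fB _

theorem cfam_ramp : CFam fun p : N × ℕ => iteratedDeriv p.2 ramp (val p.1) :=
  CFam.iteratedDeriv (by unfold dU; fun_prop) hasDerivAt_fU cfam_fU _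

theorem iteratedDeriv_bump_zero (k : ℕ) {s : ℝ} (hs : s ≤ 0 ∨ 1 ≤ s) :
    iteratedDeriv k bump s = 0 := by
  apply iteratedDeriv_fam_zero hasDerivAt_fB
  intro b
  rcases hs with hs | hs
  · simp [fB, fE_of_nonpos _ hs]
  · simp [fB, fE_of_nonpos _ (sub_nonpos.2 hs)]

theorem bump_zero {s : ℝ} (hs : s ≤ 0 ∨ 1 ≤ s) : bump s = 0 := by
  simpa using iteratedDeriv_bump_zero 0 hs

theorem iteratedDeriv_ramp_zero (k : ℕ) {s : ℝ} (hs : 1 ≤ s) : iteratedDeriv k ramp s = 0 := by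
  apply iteratedDeriv_fam_zero hasDerivAt_fU
  intro b
  simp [fU, fE_of_nonpos _ (sub_nonpos.2 hs)]

theorem bump_nonneg (s : ℝ) : 0 ≤ bump s := by
  simp only [bump, fB, fE, pow_zero, one_mul]
  exact mul_nonneg (expNegInvGlue.nonneg _) (expNegInvGlue.nonneg _)

theorem bump_pos {s : ℝ} (h0 : 0 < s) (h1 : s < 1) : 0 < bump s := by
  simp only [bump, fB, fE, pow_zero, one_mul]
  exact mul_pos (expNegInvGlue.pos_of_pos h0) (expNegInvGlue.pos_of_pos (sub_pos.2 h1))

theorem fU_zero (j : ℕ) : fU j 0 = 1 := by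
  simp [fU, fE, expNegInvGlue, ← Real.exp_add]

theorem ramp_zero : ramp 0 = 1 := fU_zero 1

theorem deriv_ramp_zero : deriv ramp 0 = 0 := by
  rw [ramp, (hasDerivAt_fU 1 0).deriv]
  simp [evalL, dU, fU_zero]

theorem bump_bound (k : ℕ) : ∃ C, ∀ s, |iteratedDeriv k bump s| ≤ C := by
  have hc : Continuous (iteratedDeriv k bump) :=
    contDiff_bump.continuous_iteratedDeriv k (by exact_mod_cast le_top)
  obtain ⟨C, hC⟩ := (isCompact_Icc (a := (0 : ℝ)) (b := 1)).exists_bound_of_continuousOn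
    hc.continuousOn
  refine ⟨max C 0, fun s => ?_⟩
  by_cases hs : s ∈ Icc (0 : ℝ) 1
  · exact (hC s hs).trans (le_max_left _ _)
  · rw [iteratedDeriv_bump_zero k]
    · simp
    · by_contra h
      push Not at h
      exact hs ⟨h.1.le, h.2.le⟩

/-! ### Periodization -/

/-- The `P`-periodic function that agrees with `G` on `[0, P)`. -/
noncomputable def per (P : ℝ) (G : ℝ → ℝ) (x : ℝ) : ℝ := G (P * Int.fract (x / P))

theorem per_eventuallyEq {P : ℝ} (hP : 0 < P) {G : ℝ → ℝ}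
    (hG : ∀ s, s ≤ 0 ∨ P / 2 ≤ s → G s = 0) (x₀ : ℝ) :
    per P G =ᶠ[𝓝 x₀] fun x => G (x - P * ⌊x₀ / P⌋) := by
  set m : ℤ := ⌊x₀ / P⌋ with hm
  have h1 : (m : ℝ) ≤ x₀ / P := Int.floor_le _
  have h2 : x₀ / P < m + 1 := Int.lt_floor_add_one _
  have hopen : ∀ᶠ x in 𝓝 x₀, x / P ∈ Ioo ((m : ℝ) - 1 / 2) (m + 1) :=
    (continuous_id.div_const P).continuousAt.eventually (Ioo_mem_nhds (by simp; linarith) h2)
  filter_upwards [hopen] with x hx
  unfold per
  have hxP : x = P * (x / P) := by field_simp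
  rcases le_or_gt (m : ℝ) (x / P) with h | h
  · have : ⌊x / P⌋ = m := Int.floor_eq_iff.2 ⟨h, hx.2⟩
    rw [Int.fract, this, mul_sub, ← hxP]
  · have hfl : ⌊x / P⌋ = m - 1 := Int.floor_eq_iff.2 ⟨by push_cast; linarith [hx.1], by
      push_cast; linarith⟩
    rw [hG, hG]
    · left
      rw [hxP]
      nlinarith
    · right
      rw [Int.fract, hfl]
      push_cast
      nlinarith [hx.1]

theorem contDiff_per {P : ℝ} (hP : 0 < P) {G : ℝ → ℝ} (hG : ∀ s, s ≤ 0 ∨ P / 2 ≤ s → G s = 0)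
    (hc : ContDiff ℝ (⊤ : ℕ∞) G) : ContDiff ℝ (⊤ : ℕ∞) (per P G) := by
  rw [contDiff_iff_contDiffAt]
  intro x₀
  exact ((hc.comp (contDiff_id.sub contDiff_const)).contDiffAt).congr_of_eventuallyEq
    (per_eventuallyEq hP hG x₀)

theorem iteratedDeriv_per {P : ℝ} (hP : 0 < P) {G : ℝ → ℝ}
    (hG : ∀ s, s ≤ 0 ∨ P / 2 ≤ s → G s = 0) (k : ℕ) (x : ℝ) :
    iteratedDeriv k (per P G) x = iteratedDeriv k G (P * Int.fract (x / P)) := by
  rw [(per_eventuallyEq hP hG x).iteratedDeriv_eq, iteratedDeriv_comp_sub_const]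
  rw [Int.fract]
  field_simp

theorem per_add_int {P : ℝ} (hP : 0 < P) (G : ℝ → ℝ) (x : ℝ) (k : ℤ) :
    per P G (x + k * P) = per P G x := by
  unfold per
  rw [add_div, mul_div_assoc, div_self hP.ne', mul_one, Int.fract_add_intCast]

/-- The periodic time profile. -/
noncomputable def psi (t : ℝ) : ℝ := per 2 bump (t + 1)

theorem bump_supp2 : ∀ s : ℝ, s ≤ 0 ∨ 2 / 2 ≤ s → bump s = 0 := fun s hs =>
  bump_zero (by simpa using hs)

theorem contDiff_psi : ContDiff ℝ (⊤ : ℕ∞) psi :=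
  (contDiff_per two_pos bump_supp2 contDiff_bump).comp (contDiff_id.add contDiff_const)

theorem iteratedDeriv_psi (k : ℕ) (t : ℝ) :
    iteratedDeriv k psi t = iteratedDeriv k bump (2 * Int.fract ((t + 1) / 2)) := by
  unfold psi
  rw [iteratedDeriv_comp_add_const]
  exact iteratedDeriv_per two_pos bump_supp2 k (t + 1)

theorem psi_periodic : Function.Periodic psi 2 := by
  intro t
  have := per_add_int two_pos bump (t + 1) 1
  unfold psi
  rw [← this]
  congr 1
  push_cast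
  ring

theorem iteratedDeriv_psi_periodic (k : ℕ) (t : ℝ) :
    iteratedDeriv k psi (t + 2) = iteratedDeriv k psi t := by
  rw [iteratedDeriv_psi, iteratedDeriv_psi]
  have : (t + 2 + 1) / 2 = (t + 1) / 2 + 1 := by ring
  rw [this, Int.fract_add_one]

theorem psi_nonneg (t : ℝ) : 0 ≤ psi t := bump_nonneg _

theorem psi_zero {t : ℝ} (h0 : 0 ≤ t) (h1 : t ≤ 1) : psi t = 0 := by
  unfold psi per
  apply bump_zero
  rcases h1.lt_or_eq with h | h
  · right
    rw [Int.fract_eq_self.2 ⟨by linarith, by linarith⟩]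
    linarith
  · left
    rw [h]
    norm_num

theorem psi_pos : 0 < psi (3 / 2) := by
  unfold psi per
  have : Int.fract ((3 / 2 + 1 : ℝ) / 2) = 1 / 4 := by
    rw [Int.fract_eq_iff]
    exact ⟨by norm_num, by norm_num, 1, by norm_num⟩
  rw [this]
  exact bump_pos (by norm_num) (by norm_num)

theorem cfam_psi : CFam fun p : N × ℕ => iteratedDeriv p.2 psi (val p.1) :=
  (cfam_bump.comp (f := fun p : N × ℕ =>
    (mulN (natN 2) (fractN (mulN (addN p.1 (natN 1)) (divN 1 2))), p.2)) (by fun_prop)).congr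
    fun p => by
      rw [iteratedDeriv_psi]
      simp only [val_mulN, val_natN, val_fractN, val_addN, val_divN 1 2 two_pos]
      norm_num [div_eq_mul_inv]

/-! ### The series of bumps -/

/-- The `j`-th term. -/
noncomputable def gterm (θ : ℕ → ℝ) (j : ℕ) (x : ℝ) : ℝ :=
  θ j / j.factorial * bump (2 ^ (j + 2) * x - 1)

/-- The series of disjoint bumps with weights `θ`. -/
noncomputable def gser (θ : ℕ → ℝ) (x : ℝ) : ℝ := ∑' j, gterm θ j x

theorem contDiff_gterm (θ : ℕ → ℝ) (j : ℕ) : ContDiff ℝ (⊤ : ℕ∞) (gterm θ j) :=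
  contDiff_const.mul (contDiff_bump.comp ((contDiff_const.mul contDiff_id).sub contDiff_const))

theorem iteratedDeriv_gterm (θ : ℕ → ℝ) (j k : ℕ) (x : ℝ) :
    iteratedDeriv k (gterm θ j) x
      = θ j / j.factorial * ((2 ^ (j + 2)) ^ k * iteratedDeriv k bump (2 ^ (j + 2) * x - 1)) := by
  unfold gterm
  rw [iteratedDeriv_const_mul_field]
  have h1 : ContDiff ℝ k fun y : ℝ => bump (y - 1) :=
    (contDiff_bump.of_le (by exact_mod_cast le_top)).comp (contDiff_id.sub contDiff_const)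
  have h2 := iteratedDeriv_comp_const_mul h1 ((2 : ℝ) ^ (j + 2))
  rw [h2, iteratedDeriv_comp_sub_const]

theorem gterm_bounds {θ : ℕ → ℝ} (hθ : ∀ j, |θ j| ≤ 1) :
    ∃ v : ℕ → ℕ → ℝ, (∀ k, Summable (v k)) ∧
      ∀ k j x, ‖iteratedFDeriv ℝ k (gterm θ j) x‖ ≤ v k j := by
  choose C hC using bump_bound
  refine ⟨fun k j => 4 ^ k * C k * ((2 ^ k) ^ j / j.factorial), fun k =>
    (Real.summable_pow_div_factorial _).mul_left _, fun k j x => ?_⟩
  rw [norm_iteratedFDeriv_eq_norm_iteratedDeriv, iteratedDeriv_gterm, Real.norm_eq_abs, abs_mul,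
    abs_mul, abs_div, abs_of_pos (by positivity : (0 : ℝ) < (2 ^ (j + 2)) ^ k),
    abs_of_pos (by positivity : (0 : ℝ) < j.factorial)]
  calc |θ j| / j.factorial * ((2 ^ (j + 2)) ^ k * |iteratedDeriv k bump (2 ^ (j + 2) * x - 1)|)
      ≤ 1 / j.factorial * ((2 ^ (j + 2)) ^ k * C k) := by
        gcongr
        · exact hθ j
        · exact hC k _
    _ = 4 ^ k * C k * ((2 ^ k) ^ j / j.factorial) := by
        have : ((2 : ℝ) ^ (j + 2)) ^ k = 4 ^ k * (2 ^ k) ^ j := by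
          rw [pow_add, mul_pow, ← pow_mul, ← pow_mul 2 k j, mul_comm j k]
          norm_num [mul_comm]
        rw [this]
        ring

theorem contDiff_gser {θ : ℕ → ℝ} (hθ : ∀ j, |θ j| ≤ 1) : ContDiff ℝ (⊤ : ℕ∞) (gser θ) := by
  obtain ⟨v, hv, hb⟩ := gterm_bounds hθ
  exact contDiff_tsum (contDiff_gterm θ) (fun k _ => hv k) fun k j x _ => hb k j x

theorem iteratedDeriv_gser {θ : ℕ → ℝ} (hθ : ∀ j, |θ j| ≤ 1) (k : ℕ) (x : ℝ) :
    iteratedDeriv k (gser θ) x = ∑' j, iteratedDeriv k (gterm θ j) x := by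
  obtain ⟨v, hv, hb⟩ := gterm_bounds hθ
  have h := iteratedFDeriv_tsum_apply (N := ⊤) (contDiff_gterm θ) (fun k _ => hv k)
    (fun k j x _ => hb k j x) (k := k) le_top x
  have hs : Summable fun j => iteratedFDeriv ℝ k (gterm θ j) x :=
    Summable.of_norm_bounded (hv k) fun j => hb k j x
  simp only [iteratedDeriv_eq_iteratedFDeriv]
  unfold gser
  rw [h]
  exact (ContinuousMultilinearMap.apply ℝ (fun _ : Fin k => ℝ) ℝ fun _ => 1).map_tsum hs

theorem gser_supp (θ : ℕ → ℝ) : ∀ s : ℝ, s ≤ 0 ∨ 1 / 2 ≤ s → gser θ s = 0 := by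
  intro s hs
  have : ∀ j, gterm θ j s = 0 := by
    intro j
    unfold gterm
    rw [bump_zero, mul_zero]
    have h4 : (4 : ℝ) ≤ 2 ^ (j + 2) := by
      rw [pow_add]
      nlinarith [one_le_pow₀ (M₀ := ℝ) (a := 2) one_le_two (n := j)]
    rcases hs with hs | hs
    · left; nlinarith
    · right; nlinarith
  simp [gser, this]

/-- The centre of the `j`-th bump. -/
noncomputable def ctr (j : ℕ) : ℝ := 3 / 2 ^ (j + 3)

theorem ctr_pos (j : ℕ) : 0 < ctr j := by unfold ctr; positivity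

theorem ctr_lt_one (j : ℕ) : ctr j < 1 := by
  unfold ctr
  rw [div_lt_one (by positivity), pow_add]
  nlinarith [one_le_pow₀ (M₀ := ℝ) (a := 2) one_le_two (n := j)]

theorem gser_ctr (θ : ℕ → ℝ) (j : ℕ) : gser θ (ctr j) = θ j / j.factorial * bump (1 / 2) := by
  unfold gser
  rw [tsum_eq_single j]
  · unfold gterm ctr
    congr 2
    rw [pow_succ 2 (j + 2)]
    field_simp
    norm_num
  · intro i hi
    unfold gterm ctr
    rw [bump_zero, mul_zero]
    have hp : (0 : ℝ) < 2 ^ (j + 3) := by positivity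
    rcases lt_or_gt_of_ne hi with h | h
    · left
      have h1 : (2 : ℝ) ^ (i + 4) ≤ 2 ^ (j + 3) := pow_le_pow_right₀ one_le_two (by omega)
      rw [sub_nonpos, ← mul_div_assoc, div_le_one hp]
      have h2 : (2 : ℝ) ^ (i + 4) = 2 ^ (i + 2) * 4 := by ring
      nlinarith [pow_pos (two_pos (α := ℝ)) (i + 2)]
    · right
      have h1 : (2 : ℝ) ^ (j + 3) ≤ 2 ^ (i + 2) := pow_le_pow_right₀ one_le_two (by omega)
      rw [le_sub_iff_add_le, ← mul_div_assoc, le_div_iff₀ hp]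
      nlinarith

theorem iteratedDeriv_gser_val {θ : ℕ → ℝ} (hθ : ∀ j, |θ j| ≤ 1) (k : ℕ) (r : N) :
    iteratedDeriv k (gser θ) (val r) = ∑ j ∈ Finset.range (r.2.2 + 1),
      θ j / j.factorial
        * ((2 ^ (j + 2)) ^ k * iteratedDeriv k bump (2 ^ (j + 2) * val r - 1)) := by
  rw [iteratedDeriv_gser hθ]
  simp_rw [iteratedDeriv_gterm]
  apply tsum_eq_sum
  intro j hj
  rw [Finset.mem_range, not_lt] at hj
  rw [iteratedDeriv_bump_zero, mul_zero, mul_zero]
  have hp : (0 : ℝ) < 2 ^ (j + 2) := by positivity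
  rcases le_or_gt (val r) 0 with h | h
  · left; nlinarith
  · right
    have h1 := inv_le_val r h
    have h2 : ((r.2.2 : ℝ) + 1) ≤ 2 ^ j := by
      have : r.2.2 + 1 ≤ 2 ^ j := hj.trans (Nat.lt_two_pow_self).le
      exact_mod_cast this
    rw [div_le_iff₀ (by positivity)] at h1
    have h3 : (2 : ℝ) ^ (j + 2) = 2 ^ j * 4 := by ring
    rw [h3]
    nlinarith

/-- The spatial profile. -/
noncomputable def gper (θ : ℕ → ℝ) : ℝ → ℝ := per 1 (gser θ)

theorem contDiff_gper {θ : ℕ → ℝ} (hθ : ∀ j, |θ j| ≤ 1) : ContDiff ℝ (⊤ : ℕ∞) (gper θ) :=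
  contDiff_per one_pos (gser_supp θ) (contDiff_gser hθ)

theorem iteratedDeriv_gper (θ : ℕ → ℝ) (k : ℕ) (x : ℝ) :
    iteratedDeriv k (gper θ) x = iteratedDeriv k (gser θ) (Int.fract x) := by
  unfold gper
  rw [iteratedDeriv_per one_pos (gser_supp θ)]
  simp

theorem iteratedDeriv_gper_add_int (θ : ℕ → ℝ) (k : ℕ) (x : ℝ) (m : ℤ) :
    iteratedDeriv k (gper θ) (x + m) = iteratedDeriv k (gper θ) x := by
  rw [iteratedDeriv_gper, iteratedDeriv_gper, Int.fract_add_intCast]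

theorem gper_ctr (θ : ℕ → ℝ) (j : ℕ) : gper θ (ctr j) = θ j / j.factorial * bump (1 / 2) := by
  have := iteratedDeriv_gper θ 0 (ctr j)
  rw [iteratedDeriv_zero, iteratedDeriv_zero,
    Int.fract_eq_self.2 ⟨(ctr_pos j).le, ctr_lt_one j⟩] at this
  rw [this, gser_ctr]

theorem cfam_gper {δ : Type} [Primcodable δ] {θ : δ → ℕ → ℝ} (hθ : ∀ d j, |θ d j| ≤ 1)
    (hc : CFam fun p : δ × ℕ => θ p.1 p.2) :
    CFam fun p : δ × N × ℕ => iteratedDeriv p.2.2 (gper (θ p.1)) (val p.2.1) := by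
  have h1 : CFam fun z : (δ × N × ℕ) × ℕ => θ z.1.1 z.2
      * val (divN ((2 ^ (z.2 + 2)) ^ z.1.2.2) z.2.factorial) * iteratedDeriv z.1.2.2 bump
        (val (addN (mulN (natN (2 ^ (z.2 + 2))) (fractN z.1.2.1)) (negN (natN 1)))) :=
    ((hc.comp (f := fun z : (δ × N × ℕ) × ℕ => (z.1.1, z.2)) (by fun_prop)).mul
      (CFam.exact (by fun_prop))).mul (cfam_bump.comp (f := fun z : (δ × N × ℕ) × ℕ =>
        (addN (mulN (natN (2 ^ (z.2 + 2))) (fractN z.1.2.1)) (negN (natN 1)), z.1.2.2))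
        (by fun_prop))
  refine (h1.sum_range (J := fun p => p.2.1.2.2 + 1) (by fun_prop)).congr fun p => ?_
  rw [iteratedDeriv_gper, ← val_fractN, iteratedDeriv_gser_val (hθ p.1)]
  apply Finset.sum_congr rfl
  intro j _
  rw [val_divN _ _ (Nat.factorial_pos j), val_addN, val_mulN, val_negN, val_natN, val_natN]
  push_cast
  rw [← sub_eq_add_neg]
  ring

end Vale.Agent.P113
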