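import Vale.Agent.P113.Defs

/-! Computable families of real numbers. -/

namespace Vale.Agent.P113

section Prim

variable {α β σ : Type} [Primcodable α] [Primcodable β] [Primcodable σ]

attribute [fun_prop] Primrec

@[fun_prop] theorem p_id : Primrec (fun x : α => x) := Primrec.id
@[fun_prop] theorem p_const (s : σ) : Primrec (fun _ : α => s) := Primrec.const s
@[fun_prop] theorem p_comp {f : β → σ} {g : α → β} (hf : Primrec f) (hg : Primrec g) :
    Primrec (fun x => f (g x)) := hf.comp hg
@[fun_prop] theorem p_pair {f : α → β} {g : α → σ} (hf : Primrec f) (hg : Primrec g) :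
    Primrec (fun x => (f x, g x)) := hf.pair hg
@[fun_prop] theorem p_fst {f : α → β × σ} (hf : Primrec f) : Primrec (fun x => (f x).1) :=
  Primrec.fst.comp hf
@[fun_prop] theorem p_snd {f : α → β × σ} (hf : Primrec f) : Primrec (fun x => (f x).2) :=
  Primrec.snd.comp hf
@[fun_prop] theorem p_add {f g : α → ℕ} (hf : Primrec f) (hg : Primrec g) :
    Primrec (fun x => f x + g x) := Primrec.nat_add.comp hf hg
@[fun_prop] theorem p_sub {f g : α → ℕ} (hf : Primrec f) (hg : Primrec g) :
    Primrec (fun x => f x - g x) := Primrec.nat_sub.comp hf hg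
@[fun_prop] theorem p_mul {f g : α → ℕ} (hf : Primrec f) (hg : Primrec g) :
    Primrec (fun x => f x * g x) := Primrec.nat_mul.comp hf hg
@[fun_prop] theorem p_mod {f g : α → ℕ} (hf : Primrec f) (hg : Primrec g) :
    Primrec (fun x => f x % g x) := Primrec.nat_mod.comp hf hg
@[fun_prop] theorem p_pow {f g : α → ℕ} (hf : Primrec f) (hg : Primrec g) :
    Primrec (fun x => f x ^ g x) := (Primrec₂.unpaired'.1 Nat.Primrec.pow).comp hf hg
@[fun_prop] theorem p_cons {f : α → β} {g : α → List β} (hf : Primrec f) (hg : Primrec g) :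
    Primrec (fun x => f x :: g x) := Primrec.list_cons.comp hf hg
@[fun_prop] theorem p_tail {g : α → List β} (hg : Primrec g) :
    Primrec (fun x => (g x).tail) := Primrec.list_tail.comp hg
@[fun_prop] theorem p_length {g : α → List β} (hg : Primrec g) :
    Primrec (fun x => (g x).length) := Primrec.list_length.comp hg
@[fun_prop] theorem p_getD {g : α → List β} {f : α → ℕ} (d : β) (hg : Primrec g)
    (hf : Primrec f) : Primrec (fun x => (g x).getD (f x) d) := (Primrec.list_getD d).comp hg hf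
@[fun_prop] theorem p_cond {c : α → Bool} {f g : α → σ} (hc : Primrec c) (hf : Primrec f)
    (hg : Primrec g) : Primrec (fun x => cond (c x) (f x) (g x)) := Primrec.cond hc hf hg
@[fun_prop] theorem p_blt {f g : α → ℕ} (hf : Primrec f) (hg : Primrec g) :
    Primrec (fun x => Nat.blt (f x) (g x)) :=
  ((Primrec.nat_lt.comp hf hg).decide).of_eq fun x => by
    rw [Bool.eq_iff_iff]; simp [Nat.blt_eq]
@[fun_prop] theorem p_beq {f g : α → ℕ} (hf : Primrec f) (hg : Primrec g) :
    Primrec (fun x => Nat.beq (f x) (g x)) :=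
  ((Primrec.eq.comp hf hg).decide).of_eq fun x => by
    rw [Bool.eq_iff_iff]; simp [Nat.beq_eq]
@[fun_prop] theorem p_factorial {f : α → ℕ} (hf : Primrec f) :
    Primrec (fun x => (f x).factorial) := by
  have : Primrec Nat.factorial := by
    refine (Primrec.nat_rec₁ (f := fun n ih => (n + 1) * ih) 1 ?_).of_eq ?_
    · show Primrec fun p : ℕ × ℕ => (p.1 + 1) * p.2
      fun_prop
    · intro n
      induction n with
      | zero => rfl
      | succ n ih => simp [Nat.factorial_succ, ← ih]
  exact this.comp hf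

attribute [fun_prop] Computable

@[fun_prop] theorem c_id : Computable (fun x : α => x) := Computable.id
@[fun_prop] theorem c_const (s : σ) : Computable (fun _ : α => s) := Computable.const s
@[fun_prop] theorem c_comp {f : β → σ} {g : α → β} (hf : Computable f) (hg : Computable g) :
    Computable (fun x => f (g x)) := hf.comp hg
@[fun_prop] theorem c_pair {f : α → β} {g : α → σ} (hf : Computable f) (hg : Computable g) :
    Computable (fun x => (f x, g x)) := hf.pair hg
@[fun_prop] theorem c_fst {f : α → β × σ} (hf : Computable f) :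
    Computable (fun x => (f x).1) := Computable.fst.comp hf
@[fun_prop] theorem c_snd {f : α → β × σ} (hf : Computable f) :
    Computable (fun x => (f x).2) := Computable.snd.comp hf
@[fun_prop] theorem c_add {f g : α → ℕ} (hf : Computable f) (hg : Computable g) :
    Computable (fun x => f x + g x) := Primrec.nat_add.to_comp.comp hf hg
@[fun_prop] theorem c_mul {f g : α → ℕ} (hf : Computable f) (hg : Computable g) :
    Computable (fun x => f x * g x) := Primrec.nat_mul.to_comp.comp hf hg
@[fun_prop] theorem c_cond {c : α → Bool} {f g : α → σ} (hc : Computable c) (hf : Computable f)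
    (hg : Computable g) : Computable (fun x => cond (c x) (f x) (g x)) := Computable.cond hc hf hg

end Prim

/-- Names of rationals. -/
abbrev N : Type := ℕ × ℕ × ℕ

/-- The real value of a name. -/
noncomputable def val (r : N) : ℝ := (ratOf r : ℝ)

theorem val_eq (r : N) : val r = ((r.1 : ℝ) - r.2.1) / ((r.2.2 : ℝ) + 1) := by
  simp [val, ratOf]

def natN (n : ℕ) : N := (n, 0, 0)
def addN (r s : N) : N := (r.1 * (s.2.2 + 1) + s.1 * (r.2.2 + 1),
  r.2.1 * (s.2.2 + 1) + s.2.1 * (r.2.2 + 1), r.2.2 * s.2.2 + r.2.2 + s.2.2)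
def mulN (r s : N) : N := (r.1 * s.1 + r.2.1 * s.2.1, r.1 * s.2.1 + r.2.1 * s.1,
  r.2.2 * s.2.2 + r.2.2 + s.2.2)
def negN (r : N) : N := (r.2.1, r.1, r.2.2)
def invN (r : N) : N := (r.2.2 + 1, 0, r.1 - r.2.1 - 1)
def divN (a b : ℕ) : N := (a, 0, b - 1)
def posN (r : N) : N := (r.1 - r.2.1, 0, r.2.2)
def fractN (r : N) : N := ((r.1 + r.2.1 * r.2.2) % (r.2.2 + 1), 0, r.2.2)
def powN (r : N) (n : ℕ) : N := (fun s => mulN s r)^[n] (natN 1)
def bndN (r : N) : ℕ := r.1 + r.2.1

@[simp] theorem val_natN (n : ℕ) : val (natN n) = n := by simp [val_eq, natN]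

@[simp] theorem val_addN (r s : N) : val (addN r s) = val r + val s := by
  simp only [val_eq, addN]
  push_cast
  have h1 : (r.2.2 : ℝ) + 1 ≠ 0 := by positivity
  have h2 : (s.2.2 : ℝ) + 1 ≠ 0 := by positivity
  have h3 : (r.2.2 : ℝ) * s.2.2 + r.2.2 + s.2.2 + 1 = (r.2.2 + 1) * (s.2.2 + 1) := by ring
  rw [h3]
  field_simp
  ring

@[simp] theorem val_mulN (r s : N) : val (mulN r s) = val r * val s := by
  simp only [val_eq, mulN]
  push_cast
  have h1 : (r.2.2 : ℝ) + 1 ≠ 0 := by positivity
  have h2 : (s.2.2 : ℝ) + 1 ≠ 0 := by positivity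
  have h3 : (r.2.2 : ℝ) * s.2.2 + r.2.2 + s.2.2 + 1 = (r.2.2 + 1) * (s.2.2 + 1) := by ring
  rw [h3]
  field_simp
  ring

@[simp] theorem val_negN (r : N) : val (negN r) = -val r := by
  simp only [val_eq, negN]
  ring

theorem val_pos_iff (r : N) : 0 < val r ↔ r.2.1 < r.1 := by
  rw [val_eq, div_pos_iff_of_pos_right (by positivity), sub_pos, Nat.cast_lt]

theorem val_invN (r : N) (h : r.2.1 < r.1) : val (invN r) = (val r)⁻¹ := by
  simp only [val_eq, invN, inv_div]
  have : ((r.1 - r.2.1 - 1 : ℕ) : ℝ) + 1 = (r.1 : ℝ) - r.2.1 := by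
    rw [Nat.cast_sub (by omega), Nat.cast_sub h.le]
    simp
  rw [this]
  simp

theorem val_divN (a b : ℕ) (h : 0 < b) : val (divN a b) = (a : ℝ) / b := by
  simp only [val_eq, divN]
  rw [Nat.cast_sub h]
  simp

theorem val_posN (r : N) (h : 0 ≤ val r) : val (posN r) = val r := by
  have : r.2.1 ≤ r.1 := by
    rw [val_eq, le_div_iff₀ (by positivity), zero_mul, sub_nonneg, Nat.cast_le] at h
    exact h
  simp only [val_eq, posN]
  rw [Nat.cast_sub this]
  simp

@[simp] theorem val_fractN (r : N) : val (fractN r) = Int.fract (val r) := by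
  symm
  rw [Int.fract_eq_iff]
  have hc : (0 : ℝ) < (r.2.2 : ℝ) + 1 := by positivity
  have hlt := Nat.mod_lt (r.1 + r.2.1 * r.2.2) (Nat.succ_pos r.2.2)
  refine ⟨?_, ?_, ((r.1 + r.2.1 * r.2.2) / (r.2.2 + 1) : ℕ) - (r.2.1 : ℤ), ?_⟩
  · simp only [val_eq, fractN]
    apply div_nonneg _ hc.le
    simp
  · simp only [val_eq, fractN]
    rw [div_lt_one hc]
    simp only [Nat.cast_zero, sub_zero]
    exact_mod_cast hlt
  · simp only [val_eq, fractN]
    have h := Nat.div_add_mod (r.1 + r.2.1 * r.2.2) (r.2.2 + 1)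
    have h' : ((r.2.2 : ℝ) + 1) * (((r.1 + r.2.1 * r.2.2) / (r.2.2 + 1) : ℕ) : ℝ)
        + (((r.1 + r.2.1 * r.2.2) % (r.2.2 + 1) : ℕ) : ℝ) = r.1 + r.2.1 * r.2.2 := by
      exact_mod_cast h
    rw [Int.cast_sub, Int.cast_natCast, Int.cast_natCast]
    field_simp
    simp only [Nat.cast_zero]
    linarith

@[simp] theorem val_powN (r : N) (n : ℕ) : val (powN r n) = val r ^ n := by
  induction n with
  | zero => simp [powN]
  | succ n ih =>
    simp only [powN] at ih ⊢
    rw [Function.iterate_succ_apply', val_mulN, ih, pow_succ]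

theorem abs_val_le (r : N) : |val r| ≤ bndN r := by
  rw [val_eq, abs_div, abs_of_pos (by positivity : (0 : ℝ) < (r.2.2 : ℝ) + 1), bndN]
  push_cast
  have h1 : |(r.1 : ℝ) - r.2.1| ≤ r.1 + r.2.1 := by
    rw [abs_le]
    constructor <;> linarith [Nat.cast_nonneg (α := ℝ) r.1, Nat.cast_nonneg (α := ℝ) r.2.1]
  refine le_trans (div_le_self (abs_nonneg _) ?_) h1
  linarith [Nat.cast_nonneg (α := ℝ) r.2.2]

theorem inv_le_val (r : N) (h : 0 < val r) : 1 / ((r.2.2 : ℝ) + 1) ≤ val r := by
  have h1 := (val_pos_iff r).1 h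
  rw [val_eq]
  apply div_le_div_of_nonneg_right _ (by positivity)
  have : ((r.2.1 + 1 : ℕ) : ℝ) ≤ r.1 := by exact_mod_cast h1
  push_cast at this
  linarith

section Ops

variable {α β σ : Type} [Primcodable α] [Primcodable β] [Primcodable σ]

@[fun_prop] theorem p_natN {f : α → ℕ} (hf : Primrec f) : Primrec fun x => natN (f x) := by
  unfold natN; fun_prop
@[fun_prop] theorem p_addN {f g : α → N} (hf : Primrec f) (hg : Primrec g) :
    Primrec fun x => addN (f x) (g x) := by unfold addN; fun_prop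
@[fun_prop] theorem p_mulN {f g : α → N} (hf : Primrec f) (hg : Primrec g) :
    Primrec fun x => mulN (f x) (g x) := by unfold mulN; fun_prop
@[fun_prop] theorem p_negN {f : α → N} (hf : Primrec f) : Primrec fun x => negN (f x) := by
  unfold negN; fun_prop
@[fun_prop] theorem p_invN {f : α → N} (hf : Primrec f) : Primrec fun x => invN (f x) := by
  unfold invN; fun_prop
@[fun_prop] theorem p_divN {f g : α → ℕ} (hf : Primrec f) (hg : Primrec g) :
    Primrec fun x => divN (f x) (g x) := by unfold divN; fun_prop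
@[fun_prop] theorem p_posN {f : α → N} (hf : Primrec f) : Primrec fun x => posN (f x) := by
  unfold posN; fun_prop
@[fun_prop] theorem p_fractN {f : α → N} (hf : Primrec f) : Primrec fun x => fractN (f x) := by
  unfold fractN; fun_prop
@[fun_prop] theorem p_bndN {f : α → N} (hf : Primrec f) : Primrec fun x => bndN (f x) := by
  unfold bndN; fun_prop
@[fun_prop] theorem p_powN {f : α → N} {g : α → ℕ} (hf : Primrec f) (hg : Primrec g) :
    Primrec fun x => powN (f x) (g x) := by
  unfold powN
  refine Primrec.nat_iterate (h := fun x s => mulN s (f x)) hg (Primrec.const _) ?_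
  show Primrec fun p : α × N => mulN p.2 (f p.1)
  fun_prop

@[fun_prop] theorem c_addN {f g : α → N} (hf : Computable f) (hg : Computable g) :
    Computable fun x => addN (f x) (g x) :=
  (by fun_prop : Primrec fun p : N × N => addN p.1 p.2).to_comp.comp (hf.pair hg)
@[fun_prop] theorem c_mulN {f g : α → N} (hf : Computable f) (hg : Computable g) :
    Computable fun x => mulN (f x) (g x) :=
  (by fun_prop : Primrec fun p : N × N => mulN p.1 p.2).to_comp.comp (hf.pair hg)
@[fun_prop] theorem c_negN {f : α → N} (hf : Computable f) : Computable fun x => negN (f x) :=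
  (by fun_prop : Primrec fun p : N => negN p).to_comp.comp hf
@[fun_prop] theorem c_bndN {f : α → N} (hf : Computable f) : Computable fun x => bndN (f x) :=
  (by fun_prop : Primrec fun p : N => bndN p).to_comp.comp hf

/-- A family of reals that is uniformly computable. -/
def CFam (x : α → ℝ) : Prop :=
  ∃ g : α × ℕ → N, Computable g ∧ ∀ a n, |x a - val (g (a, n))| ≤ 1 / ((n : ℝ) + 1)

theorem CFam.congr {x y : α → ℝ} (h : CFam x) (e : ∀ a, x a = y a) : CFam y :=
  (funext e : x = y) ▸ h

theorem CFam.exact {r : α → N} (hr : Primrec r) : CFam fun a => val (r a) :=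
  ⟨fun p => r p.1, hr.to_comp.comp Computable.fst, fun a n => by simp; positivity⟩

theorem CFam.zero : CFam fun _ : α => (0 : ℝ) :=
  (CFam.exact (Primrec.const (natN 0))).congr fun _ => by simp

theorem CFam.comp {x : α → ℝ} (hx : CFam x) {f : β → α} (hf : Primrec f) :
    CFam fun b => x (f b) := by
  obtain ⟨g, hg, h⟩ := hx
  have hf' := hf.to_comp
  exact ⟨fun p => g (f p.1, p.2), by fun_prop, fun b n => h (f b) n⟩

theorem CFam.add {x y : α → ℝ} (hx : CFam x) (hy : CFam y) : CFam fun a => x a + y a := by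
  obtain ⟨g, hg, h⟩ := hx
  obtain ⟨g', hg', h'⟩ := hy
  refine ⟨fun p => addN (g (p.1, 2 * p.2 + 1)) (g' (p.1, 2 * p.2 + 1)), by fun_prop,
    fun a n => ?_⟩
  have h1 := h a (2 * n + 1)
  have h2 := h' a (2 * n + 1)
  have h3 : 1 / (((2 * n + 1 : ℕ) : ℝ) + 1) = 1 / ((n : ℝ) + 1) / 2 := by
    push_cast; field_simp; ring
  rw [h3] at h1 h2
  rw [val_addN, abs_le] at *
  constructor <;> linarith [h1.1, h1.2, h2.1, h2.2]

theorem CFam.neg {x : α → ℝ} (hx : CFam x) : CFam fun a => -x a := by
  obtain ⟨g, hg, h⟩ := hx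
  refine ⟨fun p => negN (g p), by fun_prop, fun a n => ?_⟩
  rw [val_negN, ← abs_neg]
  convert h a n using 2
  ring

theorem CFam.sub {x y : α → ℝ} (hx : CFam x) (hy : CFam y) : CFam fun a => x a - y a :=
  (hx.add hy.neg).congr fun _ => (sub_eq_add_neg _ _).symm

theorem CFam.mul {x y : α → ℝ} (hx : CFam x) (hy : CFam y) : CFam fun a => x a * y a := by
  obtain ⟨g, hg, h⟩ := hx
  obtain ⟨g', hg', h'⟩ := hy
  refine ⟨fun p => mulN (g (p.1, (bndN (g (p.1, 0)) + bndN (g' (p.1, 0)) + 3) * (p.2 + 1)))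
    (g' (p.1, (bndN (g (p.1, 0)) + bndN (g' (p.1, 0)) + 3) * (p.2 + 1))), by fun_prop,
    fun a n => ?_⟩
  set K := bndN (g (a, 0)) with hK
  set K' := bndN (g' (a, 0)) with hK'
  set m := (K + K' + 3) * (n + 1) with hm
  have hx0 : |x a| ≤ K + 1 := by
    have h1 := h a 0
    have h2 := abs_val_le (g (a, 0))
    have h3 := abs_sub_abs_le_abs_sub (x a) (val (g (a, 0)))
    norm_num at h1
    linarith
  have hy0 : |y a| ≤ K' + 1 := by
    have h1 := h' a 0
    have h2 := abs_val_le (g' (a, 0))
    have h3 := abs_sub_abs_le_abs_sub (y a) (val (g' (a, 0)))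
    norm_num at h1
    linarith
  have h1 := h a m
  have h2 := h' a m
  have hm0 : (0 : ℝ) ≤ m := Nat.cast_nonneg m
  have he1 : 1 / ((m : ℝ) + 1) ≤ 1 := by
    rw [div_le_one (by positivity)]; linarith
  have hy1 : |val (g' (a, m))| ≤ K' + 2 := by
    have h3 := abs_sub_abs_le_abs_sub (val (g' (a, m))) (y a)
    rw [abs_sub_comm] at h3
    linarith
  rw [val_mulN]
  have hid : x a * y a - val (g (a, m)) * val (g' (a, m))
      = x a * (y a - val (g' (a, m))) + val (g' (a, m)) * (x a - val (g (a, m))) := by ring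
  have hK0 : (0 : ℝ) ≤ K := Nat.cast_nonneg K
  have hK0' : (0 : ℝ) ≤ K' := Nat.cast_nonneg K'
  calc |x a * y a - val (g (a, m)) * val (g' (a, m))|
      ≤ |x a| * |y a - val (g' (a, m))| + |val (g' (a, m))| * |x a - val (g (a, m))| := by
        rw [hid, ← abs_mul, ← abs_mul]; exact abs_add_le _ _
    _ ≤ (K + 1) * (1 / ((m : ℝ) + 1)) + (K' + 2) * (1 / ((m : ℝ) + 1)) := by
        gcongr
    _ = ((K : ℝ) + K' + 3) / ((m : ℝ) + 1) := by ring
    _ ≤ 1 / ((n : ℝ) + 1) := by
        rw [div_le_div_iff₀ (by positivity) (by positivity), hm]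
        push_cast
        linarith

theorem CFam.cond {x y : α → ℝ} {c : α → Bool} (hc : Primrec c) (hx : CFam x) (hy : CFam y) :
    CFam fun a => cond (c a) (x a) (y a) := by
  obtain ⟨g, hg, h⟩ := hx
  obtain ⟨g', hg', h'⟩ := hy
  have hc' := hc.to_comp
  refine ⟨fun p => _root_.cond (c p.1) (g p) (g' p), by fun_prop, fun a n => ?_⟩
  cases hca : c a
  · simpa [hca] using h' a n
  · simpa [hca] using h a n

theorem CFam.sum_range {x : α × ℕ → ℝ} (hx : CFam x) {J : α → ℕ} (hJ : Primrec J) :
    CFam fun a => ∑ j ∈ Finset.range (J a), x (a, j) := by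
  obtain ⟨g, hg, h⟩ := hx
  have hJ' := hJ.to_comp
  refine ⟨fun p => Nat.rec (motive := fun _ => N) (natN 0)
    (fun j ih => addN ih (g ((p.1, j), J p.1 * (p.2 + 1)))) (J p.1), ?_, fun a n => ?_⟩
  · refine Computable.nat_rec (h := fun (p : α × ℕ) (q : ℕ × N) =>
      addN q.2 (g ((p.1, q.1), J p.1 * (p.2 + 1)))) (by fun_prop) (by fun_prop) ?_
    show Computable fun z : (α × ℕ) × ℕ × N => addN z.2.2 (g ((z.1.1, z.2.1), J z.1.1 * (z.1.2 + 1)))
    fun_prop
  · have key : ∀ (m k : ℕ), |∑ j ∈ Finset.range k, x (a, j) - val (Nat.rec (motive := fun _ => N)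
        (natN 0) (fun j ih => addN ih (g ((a, j), m))) k)| ≤ k * (1 / ((m : ℝ) + 1)) := by
      intro m k
      induction k with
      | zero => simp
      | succ k ih =>
        rw [Finset.sum_range_succ]
        simp only [val_addN]
        have h1 := h (a, k) m
        push_cast
        rw [abs_le] at *
        constructor <;> linarith [h1.1, h1.2, ih.1, ih.2]
    refine (key _ _).trans ?_
    rw [mul_one_div, div_le_div_iff₀ (by positivity) (by positivity)]
    push_cast
    linarith

theorem CFam.lim {x : α → ℝ} {y : α × ℕ → ℝ} (hy : CFam y)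
    (h : ∀ a n, |x a - y (a, n)| ≤ 1 / ((n : ℝ) + 1)) : CFam x := by
  obtain ⟨g, hg, h'⟩ := hy
  refine ⟨fun p => g ((p.1, 2 * p.2 + 1), 2 * p.2 + 1), by fun_prop, fun a n => ?_⟩
  have h1 := h a (2 * n + 1)
  have h2 := h' (a, 2 * n + 1) (2 * n + 1)
  have h3 : 1 / (((2 * n + 1 : ℕ) : ℝ) + 1) = 1 / ((n : ℝ) + 1) / 2 := by
    push_cast; field_simp; ring
  rw [h3] at h1 h2
  rw [abs_le] at *
  constructor <;> linarith [h1.1, h1.2, h2.1, h2.2]

theorem CFam.of_real {ν : ℝ} (h : IsComputableReal ν) : CFam fun _ : α => ν := by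
  obtain ⟨s, hs, h⟩ := h
  exact ⟨fun p => s p.2, by fun_prop, fun _ n => h n⟩

theorem list_sum_eq_range {γ : Type} (L : List γ) (d : γ) (F : γ → ℝ) :
    (L.map F).sum = ∑ j ∈ Finset.range L.length, F (L.getD j d) := by
  induction L with
  | nil => simp
  | cons a L ih =>
    rw [List.length_cons, Finset.sum_range_succ', List.map_cons, List.sum_cons, ih, add_comm]
    simp

theorem CFam.list_sum {x : α × β → ℝ} (hx : CFam x) (d : β) {L : α → List β} (hL : Primrec L) :
    CFam fun a => ((L a).map fun b => x (a, b)).sum := by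
  have h1 : CFam fun p : α × ℕ => x (p.1, (L p.1).getD p.2 d) := hx.comp (by fun_prop)
  refine (h1.sum_range (J := fun a => (L a).length) (by fun_prop)).congr fun a => ?_
  rw [list_sum_eq_range _ d]

theorem exp_approx (y : ℝ) (K M : ℕ) (hK : |y| ≤ K) (hM : K ≤ M) (hM0 : 0 < M) :
    |Real.exp y - (1 + y / M) ^ M| ≤ (K : ℝ) ^ 2 * 3 ^ K / M := by
  have hM' : (0 : ℝ) < M := by exact_mod_cast hM0
  have hKM : (K : ℝ) ≤ M := by exact_mod_cast hM
  have h1 : Real.exp y = Real.exp (y / M) ^ M := by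
    rw [← Real.exp_nat_mul]; congr 1; field_simp
  have h2 : |y / M| ≤ K / M := by
    rw [abs_div, abs_of_pos hM']; gcongr
  have h3 : (K : ℝ) / M ≤ 1 := (div_le_one hM').2 hKM
  have h4 := Real.abs_exp_sub_one_sub_id_le (h2.trans h3)
  have h5 : (y / M) ^ 2 ≤ ((K : ℝ) / M) ^ 2 := by
    rw [← sq_abs]; gcongr
  have h6 : Real.exp (y / M) ≤ Real.exp (K / M) := Real.exp_le_exp.2 ((le_abs_self _).trans h2)
  have h7 : max |Real.exp (y / M)| |1 + y / M| ≤ Real.exp (K / M) := by
    apply max_le
    · rwa [abs_of_pos (Real.exp_pos _)]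
    · have h8 := (abs_le.1 (h2.trans h3)).1
      rw [abs_of_nonneg (by linarith)]
      have := Real.add_one_le_exp (y / M)
      linarith
  have h8 : (1 : ℝ) ≤ Real.exp (K / M) := Real.one_le_exp (by positivity)
  have h9 : max |Real.exp (y / M)| |1 + y / M| ^ (M - 1) ≤ 3 ^ K := by
    calc max |Real.exp (y / M)| |1 + y / M| ^ (M - 1) ≤ Real.exp (K / M) ^ (M - 1) := by gcongr
      _ ≤ Real.exp (K / M) ^ M := pow_le_pow_right₀ h8 (Nat.sub_le _ _)
      _ = Real.exp 1 ^ K := by
        rw [← Real.exp_nat_mul, ← Real.exp_nat_mul]; congr 1; field_simp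
      _ ≤ 3 ^ K := by
        gcongr
        linarith [Real.exp_one_lt_d9]
  rw [h1]
  refine (abs_pow_sub_pow_le _ _ _).trans ?_
  have h10 : |Real.exp (y / M) - (1 + y / M)| ≤ ((K : ℝ) / M) ^ 2 := by
    rw [← sub_sub]; exact h4.trans h5
  calc |Real.exp (y / M) - (1 + y / M)| * M * max |Real.exp (y / M)| |1 + y / M| ^ (M - 1)
      ≤ ((K : ℝ) / M) ^ 2 * M * 3 ^ K := by gcongr
    _ = (K : ℝ) ^ 2 * 3 ^ K / M := by field_simp

theorem CFam.exp : CFam fun r : N => Real.exp (val r) := by
  let M : N × ℕ → ℕ := fun p => bndN p.1 ^ 2 * 3 ^ bndN p.1 * (p.2 + 1) + bndN p.1 + 1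
  have hM : Primrec M := by fun_prop
  refine CFam.lim (y := fun p => val (powN (addN (natN 1) (mulN p.1 (divN 1 (M p)))) (M p)))
    (CFam.exact (by fun_prop)) fun r n => ?_
  have hM0 : 0 < M (r, n) := Nat.succ_pos _
  have h := exp_approx (val r) (bndN r) (M (r, n)) (abs_val_le r) (by simp only [M]; omega) hM0
  rw [val_powN, val_addN, val_mulN, val_divN _ _ hM0, val_natN, Nat.cast_one, mul_one_div]
  refine h.trans ?_
  rw [div_le_div_iff₀ (by exact_mod_cast hM0) (by positivity)]
  simp only [M]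
  push_cast
  linarith [Nat.cast_nonneg (α := ℝ) (bndN r)]

/-! ### Differentially closed families -/

/-- The value of a formal linear combination. -/
noncomputable def evalL (T : β → ℝ → ℝ) (L : List (N × β)) (s : ℝ) : ℝ :=
  (L.map fun p => val p.1 * T p.2 s).sum

/-- Formal derivative of a formal linear combination. -/
def derL (D : β → List (N × β)) (L : List (N × β)) : List (N × β) :=
  L.flatMap fun p => (D p.2).map fun q => (mulN p.1 q.1, q.2)

omit [Primcodable β] in
theorem hasDerivAt_evalL {T : β → ℝ → ℝ} {D : β → List (N × β)}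
    (hD : ∀ b s, HasDerivAt (T b) (evalL T (D b) s) s) (L : List (N × β)) (s : ℝ) :
    HasDerivAt (evalL T L) (evalL T (derL D L) s) s := by
  induction L with
  | nil => exact hasDerivAt_const s (0 : ℝ)
  | cons p L ih =>
    have h1 := ((hD p.2 s).const_mul (val p.1)).fun_add ih
    have e1 : evalL T (p :: L) = fun y => val p.1 * T p.2 y + evalL T L y := by
      ext y; simp [evalL]
    have e2 : evalL T (derL D (p :: L)) s
        = val p.1 * evalL T (D p.2) s + evalL T (derL D L) s := by
      simp only [evalL, derL, List.flatMap_cons, List.map_append, List.sum_append, List.map_map]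
      congr 1
      rw [← List.sum_map_mul_left]
      congr 1
      apply List.map_congr_left
      intro q _
      simp [mul_assoc]
    rw [e1, e2]
    exact h1

omit [Primcodable β] in
theorem iteratedDeriv_evalL {T : β → ℝ → ℝ} {D : β → List (N × β)}
    (hD : ∀ b s, HasDerivAt (T b) (evalL T (D b) s) s) (L : List (N × β)) (k : ℕ) :
    iteratedDeriv k (evalL T L) = evalL T ((derL D)^[k] L) := by
  induction k with
  | zero => simp
  | succ k ih =>
    rw [iteratedDeriv_succ, ih, Function.iterate_succ_apply']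
    ext s
    exact (hasDerivAt_evalL hD _ s).deriv

omit [Primcodable β] in
theorem evalL_single (T : β → ℝ → ℝ) (b : β) : evalL T [(natN 1, b)] = T b := by
  ext s; simp [evalL]

omit [Primcodable β] in
theorem iteratedDeriv_fam {T : β → ℝ → ℝ} {D : β → List (N × β)}
    (hD : ∀ b s, HasDerivAt (T b) (evalL T (D b) s) s) (b : β) (k : ℕ) :
    iteratedDeriv k (T b) = evalL T ((derL D)^[k] [(natN 1, b)]) := by
  rw [← iteratedDeriv_evalL hD, evalL_single]

omit [Primcodable β] in
theorem contDiff_fam {T : β → ℝ → ℝ} {D : β → List (N × β)}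
    (hD : ∀ b s, HasDerivAt (T b) (evalL T (D b) s) s) (b : β) : ContDiff ℝ (⊤ : ℕ∞) (T b) := by
  apply contDiff_of_differentiable_iteratedDeriv
  intro m _
  rw [iteratedDeriv_fam hD]
  exact fun s => (hasDerivAt_evalL hD _ s).differentiableAt

omit [Primcodable β] in
theorem iteratedDeriv_fam_zero {T : β → ℝ → ℝ} {D : β → List (N × β)}
    (hD : ∀ b s, HasDerivAt (T b) (evalL T (D b) s) s) (s : ℝ) (hs : ∀ b, T b s = 0) (b : β)
    (k : ℕ) : iteratedDeriv k (T b) s = 0 := by
  rw [iteratedDeriv_fam hD]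
  simp [evalL, hs]

theorem primrec_derL {D : β → List (N × β)} (hD : Primrec D) : Primrec (derL D) := by
  unfold derL
  refine Primrec.list_flatMap Primrec.id ?_
  show Primrec fun z : List (N × β) × (N × β) => (D z.2.2).map fun q => (mulN z.2.1 q.1, q.2)
  refine Primrec.list_map (by fun_prop) ?_
  show Primrec fun y : (List (N × β) × (N × β)) × (N × β) => (mulN y.1.2.1 y.2.1, y.2.2)
  fun_prop

theorem CFam.iteratedDeriv {T : β → ℝ → ℝ} {D : β → List (N × β)} (hD' : Primrec D)
    (hD : ∀ b s, HasDerivAt (T b) (evalL T (D b) s) s) (hT : CFam fun p : N × β => T p.2 (val p.1))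
    (b : β) : CFam fun p : N × ℕ => iteratedDeriv p.2 (T b) (val p.1) := by
  have h1 : CFam fun z : (N × ℕ) × (N × β) => val z.2.1 * T z.2.2 (val z.1.1) :=
    (CFam.exact (by fun_prop)).mul (hT.comp (f := fun z : (N × ℕ) × (N × β) => (z.1.1, z.2.2))
      (by fun_prop))
  have h2 : Primrec fun p : N × ℕ => (derL D)^[p.2] [(natN 1, b)] := by
    refine Primrec.nat_iterate (h := fun _ L => derL D L) Primrec.snd (Primrec.const _) ?_
    exact (primrec_derL hD').comp Primrec.snd
  refine (h1.list_sum (natN 1, b) h2).congr fun p => ?_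
  rw [iteratedDeriv_fam hD]
  rfl

end Ops

end Vale.Agent.P113
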