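import Mathlib

open Set MeasureTheory

namespace Vale.Agent.P113

/-! ### Fields on the flat torus, as `ℤ³`-periodic functions on `ℝ³` -/

/-- Points of `ℝ³` (lifts of points of the torus) and vectors. -/
abbrev V : Type := Fin 3 → ℝ

/-- `g` is `ℤ³`-periodic, so it is a function on the torus `(ℝ/ℤ)³`. -/
def Per {β : Type} (g : V → β) : Prop :=
  ∀ (x : V) (k : Fin 3 → ℤ), g (x + fun i => (k i : ℝ)) = g x

/-- The partial derivative in the `i`-th space variable. -/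
noncomputable def pd (i : Fin 3) (g : V → ℝ) (x : V) : ℝ :=
  fderiv ℝ g x (Pi.single i 1)

/-- Joint continuity in `(t, x)` on `[0, T] × ℝ³`. -/
def CtsOn (T : ℝ) (F : ℝ → V → ℝ) : Prop :=
  ContinuousOn (fun z : ℝ × V => F z.1 z.2) (Icc 0 T ×ˢ univ)

/-- `(u, p)` is a classical solution on `[0, T] × 𝕋³` of the Navier-Stokes system with viscosity
`ν`, force `f` and zero initial velocity. -/
structure IsClassical (ν : ℝ) (f : ℝ → V → V) (T : ℝ) (u : ℝ → V → V) (p : ℝ → V → ℝ) :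
    Prop where
  u_per : ∀ t ∈ Icc 0 T, Per (u t)
  p_per : ∀ t ∈ Icc 0 T, Per (p t)
  u_diff_t : ∀ i x, DifferentiableOn ℝ (fun s => u s x i) (Icc 0 T)
  u_diff_x : ∀ t ∈ Icc 0 T, ContDiff ℝ 2 (u t)
  p_diff_x : ∀ t ∈ Icc 0 T, ContDiff ℝ 1 (p t)
  u_cts : ∀ i, CtsOn T fun t x => u t x i
  ut_cts : ∀ i, CtsOn T fun t x => derivWithin (fun s => u s x i) (Icc 0 T) t
  ux_cts : ∀ i j, CtsOn T fun t => pd j fun y => u t y i
  uxx_cts : ∀ i j k, CtsOn T fun t => pd k (pd j fun y => u t y i)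
  p_cts : CtsOn T p
  px_cts : ∀ j, CtsOn T fun t => pd j (p t)
  p_mean : ∀ t ∈ Icc 0 T, ∫ x in Icc (0 : V) 1, p t x = 0
  momentum : ∀ t ∈ Icc 0 T, ∀ x i,
    derivWithin (fun s => u s x i) (Icc 0 T) t + ∑ j, u t x j * pd j (fun y => u t y i) x
      = -pd i (p t) x + ν * ∑ j, pd j (pd j fun y => u t y i) x + f t x i
  div_free : ∀ t ∈ Icc 0 T, ∀ x, ∑ i, pd i (fun y => u t y i) x = 0
  at_rest : ∀ x, u 0 x = 0

/-- `X` is (the lift to `ℝ³` of) the particle trajectory of `a` in the velocity field `u`. -/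
def IsTrajectory (u : ℝ → V → V) (a : V) (X : ℝ → V) : Prop :=
  X 0 = a ∧ ∀ t, 0 ≤ t → HasDerivWithinAt X (u t (X t)) (Ici 0) t

/-! ### Turing machines -/

/-- A deterministic one-tape Turing machine with states `Fin nQ` and tape alphabet
`Fin (nS + 1)`, whose blank symbol is `0`. The transition gives the new state, the symbol written
and the head move (`0` left, `1` stay, `2` right). -/
structure TM where
  nQ : ℕ
  nS : ℕ
  start : Fin nQ
  halting : Fin nQ → Bool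
  δ : Fin nQ → Fin (nS + 1) → Fin nQ × Fin (nS + 1) × Fin 3

/-- One step on a configuration (state, two-sided tape, head position). -/
def TM.step (M : TM) (c : Fin M.nQ × (ℤ → Fin (M.nS + 1)) × ℤ) :
    Fin M.nQ × (ℤ → Fin (M.nS + 1)) × ℤ :=
  ((M.δ c.1 (c.2.1 c.2.2)).1,
    Function.update c.2.1 c.2.2 (M.δ c.1 (c.2.1 c.2.2)).2.1,
    c.2.2 + (((M.δ c.1 (c.2.1 c.2.2)).2.2 : ℕ) : ℤ) - 1)

/-- The initial configuration: the word `w` in cells `0, 1, …`, blank elsewhere, head on cell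
`0`. -/
def TM.init (M : TM) (w : List (Fin (M.nS + 1))) : Fin M.nQ × (ℤ → Fin (M.nS + 1)) × ℤ :=
  (M.start, fun z => if 0 ≤ z then w.getD z.toNat 0 else 0, 0)

/-- `M` reaches a halting state from `w` after finitely many steps, possibly none. -/
def TM.Halts (M : TM) (w : List (Fin (M.nS + 1))) : Prop :=
  ∃ n : ℕ, M.halting (M.step^[n] (M.init w)).1 = true

/-- The finite description of a machine: sizes, start state, halting flags, transition table. -/
def TM.code (M : TM) : ℕ × ℕ × ℕ × List Bool × List (List (ℕ × ℕ × ℕ)) :=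
  (M.nQ, M.nS, M.start.val, List.ofFn M.halting,
    List.ofFn fun q => List.ofFn fun a =>
      ((M.δ q a).1.val, (M.δ q a).2.1.val, (M.δ q a).2.2.val))

/-! ### Effective reals and forces -/

/-- The triple `(a, b, c)` names the rational number `(a - b) / (c + 1)`. -/
def ratOf (r : ℕ × ℕ × ℕ) : ℚ :=
  ((r.1 : ℚ) - (r.2.1 : ℚ)) / ((r.2.2 : ℚ) + 1)

/-- Computable real numbers. -/
def IsComputableReal (ν : ℝ) : Prop :=
  ∃ s : ℕ → ℕ × ℕ × ℕ, Computable s ∧ ∀ n : ℕ, |ν - (ratOf (s n) : ℝ)| ≤ 1 / ((n : ℝ) + 1)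

/-- Time derivative of a scalar function of `(t, x)`. -/
noncomputable def dT (F : ℝ → V → ℝ) : ℝ → V → ℝ :=
  fun t x => deriv (fun s => F s x) t

/-- Space derivative of a scalar function of `(t, x)`. -/
noncomputable def dX (i : Fin 3) (F : ℝ → V → ℝ) : ℝ → V → ℝ :=
  fun t => pd i (F t)

/-- The mixed derivative of multi-index `α` in `(t, x₁, x₂, x₃)`. -/
noncomputable def mixed (α : ℕ × ℕ × ℕ × ℕ) (F : ℝ → V → ℝ) : ℝ → V → ℝ :=
  dT^[α.1] ((dX 0)^[α.2.1] ((dX 1)^[α.2.2.1] ((dX 2)^[α.2.2.2] F)))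

/-- The program `c` returns each mixed derivative of each component of `f` at every rational point
`(t, x)` with `t ≥ 0`, to any positive rational accuracy `ε`. -/
def Computes (c : Nat.Partrec.Code) (f : ℝ → V → V) : Prop :=
  ∀ (α : ℕ × ℕ × ℕ × ℕ) (i : Fin 3) (t x₁ x₂ x₃ ε : ℕ × ℕ × ℕ), 0 ≤ ratOf t → 0 < ratOf ε →
    ∃ q : ℕ × ℕ × ℕ,
      Encodable.encode q ∈ c.eval (Encodable.encode (α, i.val, t, x₁, x₂, x₃, ε)) ∧
      |mixed α (fun s y => f s y i) (ratOf t) ![ratOf x₁, ratOf x₂, ratOf x₃] - (ratOf q : ℝ)|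
        ≤ (ratOf ε : ℝ)

end Vale.Agent.P113
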