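import Vale.Agent.P113.Unique
import Vale.Agent.P113.Bump

/-! The explicit velocity field, its force, and its particle trajectory. -/

open Set Filter Topology MeasureTheory

namespace Vale.Agent.P113

/-- Smooth real functions. -/
abbrev Sm (g : ℝ → ℝ) : Prop := ContDiff ℝ (⊤ : ℕ∞) g

theorem Sm.diff {g : ℝ → ℝ} (h : Sm g) : Differentiable ℝ g :=
  ContDiff.differentiable h (by simp)

theorem Sm.deriv {g : ℝ → ℝ} (h : Sm g) : Sm (deriv g) := (contDiff_infty_iff_deriv.1 h).2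

theorem Sm.iter {g : ℝ → ℝ} (h : Sm g) (k : ℕ) : Sm (iteratedDeriv k g) := by
  induction k with
  | zero => simpa using h
  | succ k ih => rw [iteratedDeriv_succ]; exact ih.deriv

theorem iter_iter (a b : ℕ) (g : ℝ → ℝ) :
    iteratedDeriv a (iteratedDeriv b g) = iteratedDeriv (a + b) g := by
  simp only [iteratedDeriv_eq_iterate, Function.iterate_add_apply]

/-- Sums of two products of a function of time and a function of the first coordinate. -/
def sep (A B C D : ℝ → ℝ) : ℝ → V → ℝ := fun t x => A t * B (x 0) + C t * D (x 0)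

theorem pd_comp0 {g : ℝ → ℝ} (hg : Differentiable ℝ g) (i : Fin 3) (x : V) :
    pd i (fun y : V => g (y 0)) x = if i = 0 then deriv g (x 0) else 0 := by
  have h := (hg (x 0)).hasDerivAt.comp_hasFDerivAt x (hasFDerivAt_apply (𝕜 := ℝ) (0 : Fin 3) x)
  unfold pd
  have e : (fun y : V => g (y 0)) = g ∘ fun y : V => y 0 := rfl
  rw [e, h.fderiv]
  by_cases hi : i = 0
  · subst hi; simp
  · simp [hi]

theorem dX_sep {A B C D : ℝ → ℝ} (hB : Sm B) (hD : Sm D) (i : Fin 3) (t : ℝ) (x : V) :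
    dX i (sep A B C D) t x = if i = 0 then sep A (deriv B) C (deriv D) t x else 0 := by
  have h1 : Differentiable ℝ fun y : V => B (y 0) := hB.diff.comp (differentiable_apply 0)
  have h2 : Differentiable ℝ fun y : V => D (y 0) := hD.diff.comp (differentiable_apply 0)
  unfold dX sep
  rw [pd_add i ((h1 x).const_mul _) ((h2 x).const_mul _), pd_const_mul i _ (h1 x),
    pd_const_mul i _ (h2 x), pd_comp0 hB.diff, pd_comp0 hD.diff]
  split_ifs <;> simp

theorem dX0_sep {A B C D : ℝ → ℝ} (hB : Sm B) (hD : Sm D) :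
    dX 0 (sep A B C D) = sep A (deriv B) C (deriv D) := by
  ext t x; rw [dX_sep hB hD, if_pos rfl]

theorem dX_sep_ne {A B C D : ℝ → ℝ} (hB : Sm B) (hD : Sm D) {i : Fin 3} (hi : i ≠ 0) :
    dX i (sep A B C D) = 0 := by
  ext t x; rw [dX_sep hB hD, if_neg hi]; rfl

theorem dT_sep {A B C D : ℝ → ℝ} (hA : Sm A) (hC : Sm C) :
    dT (sep A B C D) = sep (deriv A) B (deriv C) D := by
  ext t x
  exact (((hA.diff t).hasDerivAt.mul_const _).fun_add ((hC.diff t).hasDerivAt.mul_const _)).deriv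

theorem dX_zero (i : Fin 3) : dX i 0 = 0 := by
  ext t x; exact pd_const i 0 x

theorem dT_zero : dT 0 = 0 := by
  ext t x; simp [dT]

theorem iter_dX0_sep {A B C D : ℝ → ℝ} (hB : Sm B) (hD : Sm D) (k : ℕ) :
    (dX 0)^[k] (sep A B C D) = sep A (iteratedDeriv k B) C (iteratedDeriv k D) := by
  induction k with
  | zero => simp
  | succ k ih =>
    rw [Function.iterate_succ_apply', ih, dX0_sep (hB.iter k) (hD.iter k), iteratedDeriv_succ,
      iteratedDeriv_succ]

theorem iter_dT_sep {A B C D : ℝ → ℝ} (hA : Sm A) (hC : Sm C) (k : ℕ) :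
    dT^[k] (sep A B C D) = sep (iteratedDeriv k A) B (iteratedDeriv k C) D := by
  induction k with
  | zero => simp
  | succ k ih =>
    rw [Function.iterate_succ_apply', ih, dT_sep (hA.iter k) (hC.iter k), iteratedDeriv_succ,
      iteratedDeriv_succ]

theorem mixed_zero (α : ℕ × ℕ × ℕ × ℕ) : mixed α 0 = 0 := by
  unfold mixed
  rw [Function.iterate_fixed (dX_zero 2), Function.iterate_fixed (dX_zero 1),
    Function.iterate_fixed (dX_zero 0), Function.iterate_fixed dT_zero]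

theorem mixed_sep {A B C D : ℝ → ℝ} (hA : Sm A) (hB : Sm B) (hC : Sm C) (hD : Sm D)
    (α : ℕ × ℕ × ℕ × ℕ) :
    mixed α (sep A B C D) = cond (Nat.beq α.2.2.1 0) (cond (Nat.beq α.2.2.2 0)
      (sep (iteratedDeriv α.1 A) (iteratedDeriv α.2.1 B) (iteratedDeriv α.1 C)
        (iteratedDeriv α.2.1 D)) 0) 0 := by
  obtain ⟨a, b, c, d⟩ := α
  unfold mixed
  simp only
  cases d with
  | succ d =>
    rw [Function.iterate_succ_apply, dX_sep_ne hB hD (by decide),
      Function.iterate_fixed (dX_zero 2), Function.iterate_fixed (dX_zero 1),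
      Function.iterate_fixed (dX_zero 0), Function.iterate_fixed dT_zero]
    cases c <;> rfl
  | zero =>
    cases c with
    | succ c =>
      rw [Function.iterate_zero_apply, Function.iterate_succ_apply, dX_sep_ne hB hD (by decide),
        Function.iterate_fixed (dX_zero 1), Function.iterate_fixed (dX_zero 0),
        Function.iterate_fixed dT_zero]
      rfl
    | zero =>
      rw [Function.iterate_zero_apply, Function.iterate_zero_apply, iter_dX0_sep hB hD,
        iter_dT_sep hA hC]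
      rfl

/-- Functions of separated form with smooth factors. -/
def IsSep (F : ℝ → V → ℝ) : Prop := ∃ A B C D, Sm A ∧ Sm B ∧ Sm C ∧ Sm D ∧ F = sep A B C D

theorem sm_zero : Sm 0 := contDiff_const

theorem sep_zero : sep 0 0 0 0 = 0 := by ext t x; simp [sep]

theorem isSep_zero : IsSep 0 := ⟨0, 0, 0, 0, sm_zero, sm_zero, sm_zero, sm_zero, sep_zero.symm⟩

theorem IsSep.dX {F : ℝ → V → ℝ} (h : IsSep F) (i : Fin 3) : IsSep (dX i F) := by
  obtain ⟨A, B, C, D, hA, hB, hC, hD, rfl⟩ := h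
  by_cases hi : i = 0
  · subst hi
    exact ⟨A, _, C, _, hA, hB.deriv, hC, hD.deriv, dX0_sep hB hD⟩
  · rw [dX_sep_ne hB hD hi]; exact isSep_zero

theorem IsSep.dT {F : ℝ → V → ℝ} (h : IsSep F) : IsSep (dT F) := by
  obtain ⟨A, B, C, D, hA, hB, hC, hD, rfl⟩ := h
  exact ⟨_, B, _, D, hA.deriv, hB, hC.deriv, hD, dT_sep hA hC⟩

theorem IsSep.contDiff {F : ℝ → V → ℝ} (h : IsSep F) :
    ContDiff ℝ (⊤ : ℕ∞) fun z : ℝ × V => F z.1 z.2 := by
  obtain ⟨A, B, C, D, hA, hB, hC, hD, rfl⟩ := h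
  have h0 : ContDiff ℝ (⊤ : ℕ∞) fun z : ℝ × V => z.2 0 := (contDiff_apply ℝ ℝ 0).comp contDiff_snd
  exact ((hA.comp contDiff_fst).mul (hB.comp h0)).add ((hC.comp contDiff_fst).mul (hD.comp h0))

theorem IsSep.cts {F : ℝ → V → ℝ} (h : IsSep F) (T : ℝ) : CtsOn T F :=
  h.contDiff.continuous.continuousOn

theorem IsSep.diff_t {F : ℝ → V → ℝ} (h : IsSep F) (x : V) : Differentiable ℝ fun s => F s x :=
  (h.contDiff.comp (contDiff_id.prodMk contDiff_const)).differentiable (by simp)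

theorem IsSep.derivWithin {F : ℝ → V → ℝ} (h : IsSep F) {T t : ℝ} (hT : 0 < T)
    (ht : t ∈ Icc 0 T) (x : V) : derivWithin (fun s => F s x) (Icc 0 T) t = P113.dT F t x :=
  (h.diff_t x t).derivWithin (uniqueDiffOn_Icc hT t ht)

/-- The velocity field. -/
noncomputable def vel (θ : ℕ → ℝ) (c : ℝ) (t : ℝ) (x : V) : V :=
  ![-c * iteratedDeriv 1 ramp t, psi t * gper θ (x 0), 0]

/-- The force. -/
noncomputable def frc (ν : ℝ) (θ : ℕ → ℝ) (c : ℝ) (t : ℝ) (x : V) : V :=
  ![-c * iteratedDeriv 2 ramp t,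
    iteratedDeriv 1 psi t * gper θ (x 0) - ν * (psi t * iteratedDeriv 2 (gper θ) (x 0)), 0]

theorem vel0 (θ : ℕ → ℝ) (c : ℝ) : (fun t x => vel θ c t x 0)
    = sep (fun t => -c * iteratedDeriv 1 ramp t) (fun _ => 1) 0 0 := by
  ext t x; simp [vel, sep]

theorem vel1 (θ : ℕ → ℝ) (c : ℝ) : (fun t x => vel θ c t x 1) = sep psi (gper θ) 0 0 := by
  ext t x; simp [vel, sep]

theorem vel2 (θ : ℕ → ℝ) (c : ℝ) : (fun t x => vel θ c t x 2) = 0 := by
  ext t x; simp [vel]

theorem frc0 (ν : ℝ) (θ : ℕ → ℝ) (c : ℝ) : (fun t x => frc ν θ c t x 0)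
    = sep (fun t => -c * iteratedDeriv 2 ramp t) (fun _ => 1) 0 0 := by
  ext t x; simp [frc, sep]

theorem frc1 (ν : ℝ) (θ : ℕ → ℝ) (c : ℝ) : (fun t x => frc ν θ c t x 1)
    = sep (iteratedDeriv 1 psi) (gper θ) (fun t => -ν * psi t) (iteratedDeriv 2 (gper θ)) := by
  ext t x; simp [frc, sep]; ring

theorem frc2 (ν : ℝ) (θ : ℕ → ℝ) (c : ℝ) : (fun t x => frc ν θ c t x 2) = 0 := by
  ext t x; simp [frc]

theorem sm_ramp (c : ℝ) (k : ℕ) : Sm fun t => -c * iteratedDeriv k ramp t :=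
  contDiff_const.mul (Sm.iter contDiff_ramp k)

theorem isSep_vel {θ : ℕ → ℝ} (hθ : ∀ j, |θ j| ≤ 1) (c : ℝ) (i : Fin 3) :
    IsSep fun t x => vel θ c t x i := by
  fin_cases i
  · exact ⟨_, _, _, _, sm_ramp c 1, contDiff_const, sm_zero, sm_zero, vel0 θ c⟩
  · exact ⟨_, _, _, _, contDiff_psi, contDiff_gper hθ, sm_zero, sm_zero, vel1 θ c⟩
  · exact (vel2 θ c).symm ▸ isSep_zero

theorem isSep_frc (ν : ℝ) {θ : ℕ → ℝ} (hθ : ∀ j, |θ j| ≤ 1) (c : ℝ) (i : Fin 3) :
    IsSep fun t x => frc ν θ c t x i := by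
  fin_cases i
  · exact ⟨_, _, _, _, sm_ramp c 2, contDiff_const, sm_zero, sm_zero, frc0 ν θ c⟩
  · exact ⟨_, _, _, _, Sm.iter contDiff_psi 1, contDiff_gper hθ, contDiff_const.mul contDiff_psi,
      Sm.iter (contDiff_gper hθ) 2, frc1 ν θ c⟩
  · exact (frc2 ν θ c).symm ▸ isSep_zero

theorem contDiff_vel {θ : ℕ → ℝ} (hθ : ∀ j, |θ j| ≤ 1) (c : ℝ) :
    ContDiff ℝ (⊤ : ℕ∞) fun z : ℝ × V => vel θ c z.1 z.2 :=
  contDiff_pi.2 fun i => (isSep_vel hθ c i).contDiff

theorem contDiff_frc (ν : ℝ) {θ : ℕ → ℝ} (hθ : ∀ j, |θ j| ≤ 1) (c : ℝ) :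
    ContDiff ℝ (⊤ : ℕ∞) fun z : ℝ × V => frc ν θ c z.1 z.2 :=
  contDiff_pi.2 fun i => (isSep_frc ν hθ c i).contDiff

theorem gper_add_int (θ : ℕ → ℝ) (x : ℝ) (m : ℤ) : gper θ (x + m) = gper θ x := by
  simpa using iteratedDeriv_gper_add_int θ 0 x m

theorem per_vel (θ : ℕ → ℝ) (c t : ℝ) : Per (vel θ c t) := by
  intro x k
  simp only [vel, Pi.add_apply, gper_add_int]

theorem per_frc (ν : ℝ) (θ : ℕ → ℝ) (c t : ℝ) : Per (frc ν θ c t) := by
  intro x k
  simp only [frc, Pi.add_apply, gper_add_int, iteratedDeriv_gper_add_int]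

theorem frc_periodic (ν : ℝ) (θ : ℕ → ℝ) (c : ℝ) {t : ℝ} (ht : 1 ≤ t) (x : V) :
    frc ν θ c (t + 2) x = frc ν θ c t x := by
  simp only [frc, iteratedDeriv_ramp_zero 2 ht,
    iteratedDeriv_ramp_zero 2 (by linarith : 1 ≤ t + 2), iteratedDeriv_psi_periodic,
    psi_periodic t]

theorem frc_indep (ν : ℝ) (θ : ℕ → ℝ) (c c' : ℝ) {t : ℝ} (ht : 1 ≤ t) (x : V) :
    frc ν θ c t x = frc ν θ c' t x := by
  simp only [frc, iteratedDeriv_ramp_zero 2 ht, mul_zero]

theorem ramp_mul_psi {t : ℝ} (ht : 0 ≤ t) : iteratedDeriv 1 ramp t * psi t = 0 := by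
  rcases le_total t 1 with h | h
  · rw [psi_zero ht h, mul_zero]
  · rw [iteratedDeriv_ramp_zero 1 h, zero_mul]

theorem isClassical_vel (ν : ℝ) {θ : ℕ → ℝ} (hθ : ∀ j, |θ j| ≤ 1) (c : ℝ) {T : ℝ} (hT : 0 < T) :
    IsClassical ν (frc ν θ c) T (vel θ c) fun _ _ => 0 := by
  have hs := isSep_vel hθ c
  have hg : Sm (gper θ) := contDiff_gper hθ
  have h1 : Sm fun _ : ℝ => (1 : ℝ) := contDiff_const
  have hr : ∀ t, deriv (fun t => -c * iteratedDeriv 1 ramp t) t = -c * iteratedDeriv 2 ramp t := by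
    intro t
    rw [deriv_const_mul_field, ← iteratedDeriv_succ]
  have X0 : ∀ j, dX j (fun t x => vel θ c t x 0) = 0 := by
    intro j
    ext t x
    rw [vel0, dX_sep h1 sm_zero]
    simp [sep]
  have X2 : ∀ j, dX j (fun t x => vel θ c t x 2) = 0 := fun j => by rw [vel2, dX_zero]
  have X10 : dX 0 (fun t x => vel θ c t x 1) = sep psi (deriv (gper θ)) 0 (deriv 0) := by
    rw [vel1, dX0_sep hg sm_zero]
  have X11 : dX 1 (fun t x => vel θ c t x 1) = 0 := by
    rw [vel1, dX_sep_ne hg sm_zero (by decide)]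
  have X12 : dX 2 (fun t x => vel θ c t x 1) = 0 := by
    rw [vel1, dX_sep_ne hg sm_zero (by decide)]
  refine
    { u_per := fun t _ => per_vel θ c t
      p_per := fun t _ x k => rfl
      u_diff_t := fun i x => ((hs i).diff_t x).differentiableOn
      u_diff_x := fun t _ => ((contDiff_vel hθ c).comp
        (contDiff_const.prodMk contDiff_id)).of_le (WithTop.coe_le_coe.2 (le_top (a := (2 : ℕ∞))))
      p_diff_x := fun t _ => contDiff_const
      u_cts := fun i => (hs i).cts T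
      ut_cts := fun i => ((hs i).dT.cts T).congr fun z hz => (hs i).derivWithin hT hz.1 z.2
      ux_cts := fun i j => ((hs i).dX j).cts T
      uxx_cts := fun i j k => (((hs i).dX j).dX k).cts T
      p_cts := continuousOn_const
      px_cts := fun j => by
        have : (fun (_ : ℝ) => pd j fun _ : V => (0 : ℝ)) = fun _ _ => 0 := by
          ext t x; exact pd_const j 0 x
        rw [this]
        exact continuousOn_const
      p_mean := fun t _ => by simp
      momentum := fun t ht x i => ?_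
      div_free := fun t _ x => ?_
      at_rest := fun x => ?_ }
  · rw [(hs i).derivWithin hT ht x, pd_const]
    change dT (fun t x => vel θ c t x i) t x
        + ∑ j, vel θ c t x j * dX j (fun t x => vel θ c t x i) t x
      = -0 + ν * ∑ j, dX j (dX j fun t x => vel θ c t x i) t x + frc ν θ c t x i
    fin_cases i
    · simp only [Fin.zero_eta, X0, dX_zero]
      rw [vel0, dT_sep (sm_ramp c 1) sm_zero]
      simp only [sep, hr]
      simp [frc]
    · simp only [Fin.mk_one, Fin.sum_univ_three, X10, X11, X12, dX_zero]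
      rw [vel1, dT_sep contDiff_psi sm_zero, dX0_sep hg.deriv sm_zero.deriv]
      have h3 := ramp_mul_psi ht.1
      have h4 : iteratedDeriv 2 (gper θ) = deriv (deriv (gper θ)) := by
        rw [iteratedDeriv_succ, iteratedDeriv_one]
      simp only [iteratedDeriv_one] at h3
      simp [sep, vel, frc, h4, -mul_eq_zero]
      linear_combination (c * deriv (gper θ) (x 0)) * h3
    · simp only [Fin.reduceFinMk, X2, dX_zero]
      rw [vel2, dT_zero]
      simp [frc]
  · change ∑ i, dX i (fun t x => vel θ c t x i) t x = 0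
    simp [Fin.sum_univ_three, X0, X11, X2]
  · ext i
    fin_cases i <;> simp [vel, deriv_ramp_zero, psi_zero le_rfl zero_le_one]

/-! ### Trajectories -/

/-- The primitive of the time profile. -/
noncomputable def bigPsi (t : ℝ) : ℝ := ∫ s in (0 : ℝ)..t, psi s

theorem hasDerivAt_bigPsi (t : ℝ) : HasDerivAt bigPsi (psi t) t :=
  (contDiff_psi.continuous.integral_hasStrictDerivAt 0 t).hasDerivAt

theorem tendsto_bigPsi : Tendsto bigPsi atTop atTop :=
  psi_periodic.tendsto_atTop_intervalIntegral_of_pos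
    (intervalIntegral.integral_pos two_pos contDiff_psi.continuous.continuousOn
      (fun x _ => psi_nonneg x) ⟨3 / 2, ⟨by norm_num, by norm_num⟩, psi_pos⟩) two_pos

theorem eq_of_deriv_Ici {Y Z D : ℝ → ℝ} (hY : ∀ t, 0 ≤ t → HasDerivWithinAt Y (D t) (Ici 0) t)
    (hZ : ∀ t, HasDerivAt Z (D t) t) (h0 : Y 0 = Z 0) {t : ℝ} (ht : 0 ≤ t) : Y t = Z t := by
  refine eq_of_has_deriv_right_eq (f' := D) (a := 0) (b := t)
    (fun s hs => (hY s hs.1).mono (Ici_subset_Ici.2 hs.1)) (fun s _ => (hZ s).hasDerivWithinAt)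
    (fun s hs => ((hY s hs.1).continuousWithinAt).mono Icc_subset_Ici_self)
    (fun s _ => (hZ s).continuousAt.continuousWithinAt) h0 t ⟨ht, le_rfl⟩

theorem hasDerivAt_pos (c t : ℝ) :
    HasDerivAt (fun s => c * (1 - ramp s)) (-c * iteratedDeriv 1 ramp t) t := by
  have := (((Sm.diff contDiff_ramp) t).hasDerivAt.const_sub 1).const_mul c
  refine this.congr_deriv ?_
  simp

theorem psi_mul_gper (θ : ℕ → ℝ) (c : ℝ) {t : ℝ} (ht : 0 ≤ t) :
    psi t * gper θ (c * (1 - ramp t)) = gper θ c * psi t := by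
  rcases le_total t 1 with h | h
  · simp [psi_zero ht h]
  · have : ramp t = 0 := by simpa using iteratedDeriv_ramp_zero 0 h
    simp [this, mul_comm]

theorem exists_trajectory (θ : ℕ → ℝ) (c : ℝ) : ∃ X, IsTrajectory (vel θ c) 0 X := by
  refine ⟨fun t => ![c * (1 - ramp t), gper θ c * bigPsi t, 0], ?_, fun t ht => ?_⟩
  · ext i
    fin_cases i <;> simp [ramp_zero, bigPsi]
  · apply HasDerivAt.hasDerivWithinAt
    rw [hasDerivAt_pi]
    intro i
    fin_cases i
    · exact hasDerivAt_pos c t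
    · refine ((hasDerivAt_bigPsi t).const_mul (gper θ c)).congr_deriv ?_
      exact (psi_mul_gper θ c ht).symm
    · exact hasDerivAt_const t (0 : ℝ)

theorem trajectory_snd {θ : ℕ → ℝ} {c : ℝ} {X : ℝ → V} (hX : IsTrajectory (vel θ c) 0 X)
    {t : ℝ} (ht : 0 ≤ t) : X t 1 = gper θ c * bigPsi t := by
  have hi : ∀ i s, 0 ≤ s → HasDerivWithinAt (fun r => X r i) (vel θ c s (X s) i) (Ici 0) s :=
    fun i s hs => hasDerivWithinAt_pi.1 (hX.2 s hs) i
  have h0 : ∀ s, 0 ≤ s → X s 0 = c * (1 - ramp s) := fun s hs =>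
    eq_of_deriv_Ici (Y := fun r => X r 0) (hi 0) (hasDerivAt_pos c)
      (by simp [hX.1, ramp_zero]) hs
  refine eq_of_deriv_Ici (Y := fun r => X r 1) (D := fun s => gper θ c * psi s) (fun s hs => ?_)
    (fun s => (hasDerivAt_bigPsi s).const_mul _) (by simp [hX.1, bigPsi]) ht
  refine (hi 1 s hs).congr_deriv ?_
  rw [← psi_mul_gper θ c hs, ← h0 s hs]
  rfl

/-- The target open set of the torus. -/
def target : Set (Fin 3 → UnitAddCircle) := {y | 1 / 4 < ‖y 1‖}

theorem isOpen_target : IsOpen target :=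
  isOpen_lt continuous_const (continuous_apply 1).norm

theorem hits_iff {θ : ℕ → ℝ} {c : ℝ} (hc : 0 ≤ gper θ c) {X : ℝ → V}
    (hX : IsTrajectory (vel θ c) 0 X) :
    (∃ t, 0 ≤ t ∧ (fun i => ((X t i : ℝ) : UnitAddCircle)) ∈ target) ↔ 0 < gper θ c := by
  constructor
  · rintro ⟨t, ht, h⟩
    refine hc.lt_of_ne fun h0 => ?_
    simp only [target, mem_ofPred_eq, trajectory_snd hX ht, ← h0] at h
    norm_num at h
  · intro h
    have hcont : Continuous bigPsi := continuous_iff_continuousAt.2 fun t =>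
      (hasDerivAt_bigPsi t).continuousAt
    have h1 := intermediate_value_Ici (a := 0) hcont.continuousOn tendsto_bigPsi
    have h2 : (1 / 2) / gper θ c ∈ Ici (bigPsi 0) := by
      simp only [bigPsi, intervalIntegral.integral_same, mem_Ici]
      positivity
    obtain ⟨t, ht, h3⟩ := h1 h2
    refine ⟨t, ht, ?_⟩
    simp only [target, mem_ofPred_eq, trajectory_snd hX ht, h3]
    rw [mul_div_cancel₀ _ h.ne', AddCircle.norm_half_period_eq]
    norm_num

end Vale.Agent.P113
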