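import Vale.Agent.P113.Comp

/-! A primitive recursive simulation of machines from their descriptions. -/

namespace Vale.Agent.P113

abbrev Desc : Type := ℕ × ℕ × ℕ × List Bool × List (List (ℕ × ℕ × ℕ))

abbrev Raw : Type := ℕ × List ℕ × List ℕ

def rawLook (d : Desc) (c : Raw) : ℕ × ℕ × ℕ :=
  (d.2.2.2.2.getD c.1 []).getD (c.2.2.getD 0 0) (0, 0, 0)

def rawMove (r : ℕ × ℕ × ℕ) (c : Raw) : Raw :=
  cond (Nat.beq r.2.2 0) (r.1, c.2.1.tail, c.2.1.getD 0 0 :: r.2.1 :: c.2.2.tail)
    (cond (Nat.beq r.2.2 1) (r.1, c.2.1, r.2.1 :: c.2.2.tail) (r.1, r.2.1 :: c.2.1, c.2.2.tail))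

def rawStep (d : Desc) (c : Raw) : Raw := rawMove (rawLook d c) c

def rawHalt (d : Desc) (w : List ℕ) (n : ℕ) : Bool :=
  d.2.2.2.1.getD ((rawStep d)^[n] (d.2.2.1, [], w)).1 false

theorem primrec_rawLook : Primrec fun p : Desc × Raw => rawLook p.1 p.2 := by
  unfold rawLook; fun_prop

theorem primrec_rawMove : Primrec fun p : (ℕ × ℕ × ℕ) × Raw => rawMove p.1 p.2 := by
  unfold rawMove; fun_prop

theorem primrec_rawStep : Primrec fun p : Desc × Raw => rawStep p.1 p.2 :=
  (primrec_rawMove.comp (g := fun p : Desc × Raw => (rawLook p.1 p.2, p.2))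
    (primrec_rawLook.pair Primrec.snd)).of_eq fun _ => rfl

theorem primrec_rawHalt : Primrec fun p : (Desc × List ℕ) × ℕ => rawHalt p.1.1 p.1.2 p.2 := by
  have h1 : Primrec fun p : (Desc × List ℕ) × ℕ =>
      (rawStep p.1.1)^[p.2] (p.1.1.2.2.1, [], p.1.2) := by
    refine Primrec.nat_iterate (h := fun (p : (Desc × List ℕ) × ℕ) c => rawStep p.1.1 c)
      Primrec.snd (by fun_prop) ?_
    exact primrec_rawStep.comp (g := fun z : ((Desc × List ℕ) × ℕ) × Raw => (z.1.1.1, z.2))
      (by fun_prop)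
  unfold rawHalt
  exact p_getD false (by fun_prop) (Primrec.fst.comp h1)

/-- The simulation relation. -/
def Rel (M : TM) (c : Fin M.nQ × (ℤ → Fin (M.nS + 1)) × ℤ) (r : Raw) : Prop :=
  r.1 = c.1.val ∧ (∀ i : ℕ, r.2.1.getD i 0 = (c.2.1 (c.2.2 - 1 - i)).val) ∧
    ∀ i : ℕ, r.2.2.getD i 0 = (c.2.1 (c.2.2 + i)).val

theorem getD_tail (L : List ℕ) (i : ℕ) : L.tail.getD i 0 = L.getD (i + 1) 0 := by
  cases L <;> simp

theorem rawLook_eq (M : TM) {c : Fin M.nQ × (ℤ → Fin (M.nS + 1)) × ℤ} {r : Raw}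
    (h : Rel M c r) : rawLook M.code r = ((M.δ c.1 (c.2.1 c.2.2)).1.val,
      (M.δ c.1 (c.2.1 c.2.2)).2.1.val, (M.δ c.1 (c.2.1 c.2.2)).2.2.val) := by
  have h0 := h.2.2 0
  simp only [Nat.cast_zero, add_zero] at h0
  unfold rawLook
  rw [h0, h.1]
  simp [TM.code, List.getD_eq_getElem?_getD, -List.ofFn_succ, (c.2.1 c.2.2).isLt]

theorem rel_step (M : TM) {c : Fin M.nQ × (ℤ → Fin (M.nS + 1)) × ℤ} {r : Raw}
    (h : Rel M c r) : Rel M (M.step c) (rawStep M.code r) := by
  obtain ⟨h1, hL, hR⟩ := id h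
  unfold rawStep
  rw [rawLook_eq M h]
  unfold TM.step
  generalize M.δ c.1 (c.2.1 c.2.2) = e
  obtain ⟨q, a, m⟩ := e
  obtain ⟨c1, τ, z⟩ := c
  simp only at hL hR ⊢
  have up : ∀ y : ℤ, y ≠ z → Function.update τ z a y = τ y := fun y hy =>
    Function.update_of_ne hy _ _
  fin_cases m
  · refine ⟨rfl, fun i => ?_, fun i => ?_⟩
    · simp only [rawMove, Nat.beq, cond_true, getD_tail, hL]
      rw [up _ (by push_cast; omega)]
      congr 2
      push_cast; omega
    · simp only [rawMove, Nat.beq, cond_true]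
      match i with
      | 0 =>
        rw [List.getD_cons_zero, hL, up _ (by push_cast; omega)]
        congr 2
        push_cast; omega
      | 1 =>
        rw [List.getD_cons_succ, List.getD_cons_zero]
        have : z + ((0 : ℕ) : ℤ) - 1 + ((1 : ℕ) : ℤ) = z := by push_cast; omega
        rw [this, Function.update_self]
      | i + 2 =>
        rw [List.getD_cons_succ, List.getD_cons_succ, getD_tail, hR, up _ (by push_cast; omega)]
        congr 2
        push_cast; omega
  · refine ⟨rfl, fun i => ?_, fun i => ?_⟩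
    · simp only [rawMove, Nat.beq, cond_true, cond_false, hL]
      rw [up _ (by push_cast; omega)]
      congr 2
      push_cast; omega
    · simp only [rawMove, Nat.beq, cond_true, cond_false]
      match i with
      | 0 =>
        rw [List.getD_cons_zero]
        have : z + ((1 : ℕ) : ℤ) - 1 + ((0 : ℕ) : ℤ) = z := by push_cast; omega
        rw [this, Function.update_self]
      | i + 1 =>
        rw [List.getD_cons_succ, getD_tail, hR, up _ (by push_cast; omega)]
        congr 2
        push_cast; omega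
  · refine ⟨rfl, fun i => ?_, fun i => ?_⟩
    · simp only [rawMove, Nat.beq, cond_false]
      match i with
      | 0 =>
        rw [List.getD_cons_zero]
        have : z + ((2 : ℕ) : ℤ) - 1 - 1 - ((0 : ℕ) : ℤ) = z := by push_cast; omega
        rw [this, Function.update_self]
      | i + 1 =>
        rw [List.getD_cons_succ, hL, up _ (by push_cast; omega)]
        congr 2
        push_cast; omega
    · simp only [rawMove, Nat.beq, cond_false, getD_tail, hR]
      rw [up _ (by push_cast; omega)]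
      congr 2
      push_cast; omega

theorem rel_init (M : TM) (w : List (Fin (M.nS + 1))) :
    Rel M (M.init w) (M.code.2.2.1, [], w.map Fin.val) := by
  refine ⟨rfl, fun i => ?_, fun i => ?_⟩
  · have : ¬ (0 : ℤ) ≤ 0 - 1 - i := by omega
    simp only [TM.init, this, if_false]
    simp
  · simp only [TM.init, zero_add, Nat.cast_nonneg, if_true, Int.toNat_natCast,
      List.getD_eq_getElem?_getD, List.getElem?_map]
    cases w[i]? <;> simp

theorem rawHalt_eq (M : TM) (w : List (Fin (M.nS + 1))) (n : ℕ) :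
    rawHalt M.code (w.map Fin.val) n = M.halting (M.step^[n] (M.init w)).1 := by
  have h : Rel M (M.step^[n] (M.init w))
      ((rawStep M.code)^[n] (M.code.2.2.1, [], w.map Fin.val)) := by
    induction n with
    | zero => exact rel_init M w
    | succ n ih =>
      rw [Function.iterate_succ_apply', Function.iterate_succ_apply']
      exact rel_step M ih
  unfold rawHalt
  rw [h.1]
  simp [TM.code, List.getD_eq_getElem?_getD]

/-- The weight of one step. -/
noncomputable def wt (d : Desc) (j n : ℕ) : ℝ :=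
  cond (rawHalt d (Denumerable.ofNat (List ℕ) j) n) ((1 / 2) ^ (n + 1)) 0

/-- A computable number in `[0, 1]` that is positive iff the machine halts on the `j`-th word. -/
noncomputable def theta (d : Desc) (j : ℕ) : ℝ := ∑' n, wt d j n

theorem wt_nonneg (d : Desc) (j n : ℕ) : 0 ≤ wt d j n := by
  unfold wt
  cases rawHalt d (Denumerable.ofNat (List ℕ) j) n <;> simp

theorem wt_le (d : Desc) (j n : ℕ) : wt d j n ≤ (1 / 2) ^ (n + 1) := by
  unfold wt
  cases rawHalt d (Denumerable.ofNat (List ℕ) j) n <;> simp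

theorem hasSum_half (m : ℕ) : HasSum (fun n : ℕ => (1 / 2 : ℝ) ^ (n + m + 1)) ((1 / 2) ^ m) := by
  have h := hasSum_geometric_two.mul_right ((1 / 2 : ℝ) ^ (m + 1))
  have e1 : (fun n : ℕ => (1 / 2 : ℝ) ^ (n + m + 1))
      = fun i : ℕ => (1 / 2 : ℝ) ^ i * (1 / 2) ^ (m + 1) := by
    ext n; ring
  have e2 : (1 / 2 : ℝ) ^ m = 2 * (1 / 2) ^ (m + 1) := by ring
  rw [e1, e2]
  exact h

theorem summable_wt (d : Desc) (j : ℕ) : Summable (wt d j) :=
  Summable.of_nonneg_of_le (wt_nonneg d j) (wt_le d j) (hasSum_half 0).summable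

theorem wt_tail (d : Desc) (j m : ℕ) :
    0 ≤ ∑' n, wt d j (n + m) ∧ ∑' n, wt d j (n + m) ≤ (1 / 2) ^ m := by
  refine ⟨tsum_nonneg fun n => wt_nonneg _ _ _, ?_⟩
  rw [← (hasSum_half m).tsum_eq]
  exact ((summable_nat_add_iff m).2 (summable_wt d j)).tsum_le_tsum (fun n => wt_le _ _ _)
    (hasSum_half m).summable

theorem theta_nonneg (d : Desc) (j : ℕ) : 0 ≤ theta d j := (wt_tail d j 0).1

theorem abs_theta_le (d : Desc) (j : ℕ) : |theta d j| ≤ 1 := by
  rw [abs_of_nonneg (theta_nonneg d j)]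
  simpa [theta] using (wt_tail d j 0).2

theorem theta_pos_iff (M : TM) (w : List (Fin (M.nS + 1))) :
    0 < theta M.code (Encodable.encode (w.map Fin.val)) ↔ M.Halts w := by
  have hw : ∀ n, wt M.code (Encodable.encode (w.map Fin.val)) n
      = cond (M.halting (M.step^[n] (M.init w)).1) ((1 / 2) ^ (n + 1)) 0 := by
    intro n
    unfold wt
    rw [Denumerable.ofNat_encode, rawHalt_eq]
  constructor
  · intro h
    by_contra hn
    have : ∀ n, wt M.code (Encodable.encode (w.map Fin.val)) n = 0 := by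
      intro n
      have h2 : M.halting (M.step^[n] (M.init w)).1 = false := by
        rw [← Bool.not_eq_true]
        exact fun h3 => hn ⟨n, h3⟩
      rw [hw, h2, cond_false]
    simp [theta, this] at h
  · rintro ⟨n, hn⟩
    refine (summable_wt _ _).tsum_pos (wt_nonneg _ _) n ?_
    rw [hw, hn, cond_true]
    positivity

theorem cfam_theta : CFam fun p : Desc × ℕ => theta p.1 p.2 := by
  have h0 : Primrec fun z : ((Desc × ℕ) × ℕ) × ℕ =>
      rawHalt z.1.1.1 (Denumerable.ofNat (List ℕ) z.1.1.2) z.2 :=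
    primrec_rawHalt.comp (g := fun z : ((Desc × ℕ) × ℕ) × ℕ =>
      ((z.1.1.1, Denumerable.ofNat (List ℕ) z.1.1.2), z.2))
      (((by fun_prop : Primrec fun z : ((Desc × ℕ) × ℕ) × ℕ => z.1.1.1).pair
        ((Primrec.ofNat (List ℕ)).comp (by fun_prop))).pair Primrec.snd)
  have h1 : CFam fun z : ((Desc × ℕ) × ℕ) × ℕ => wt z.1.1.1 z.1.1.2 z.2 :=
    (CFam.cond h0 (CFam.exact (r := fun z : ((Desc × ℕ) × ℕ) × ℕ => divN 1 (2 ^ (z.2 + 1)))
      (by fun_prop)) CFam.zero).congr fun z => by
        unfold wt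
        rw [val_divN _ _ (by positivity)]
        simp
  refine CFam.lim (h1.sum_range (J := fun p => p.2) Primrec.snd) fun p m => ?_
  have h2 := (summable_wt p.1 p.2).sum_add_tsum_nat_add m
  have h3 := wt_tail p.1 p.2 m
  have h4 : (1 / 2 : ℝ) ^ m ≤ 1 / ((m : ℝ) + 1) := by
    rw [one_div_pow]
    apply one_div_le_one_div_of_le (by positivity)
    have : m + 1 ≤ 2 ^ m := Nat.lt_two_pow_self
    exact_mod_cast this
  unfold theta
  rw [← h2, add_sub_cancel_left, abs_of_nonneg h3.1]
  exact h3.2.trans h4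

end Vale.Agent.P113
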