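import Vale.Agent.P113.Flow
import Vale.Agent.P113.TMSim

/-! The force compiler and the main theorem. -/

open Set

namespace Vale.Agent.P113

/-- Queries: multi-index, component, time, three coordinates, accuracy. -/
abbrev Qry : Type := (ℕ × ℕ × ℕ × ℕ) × ℕ × N × N × N × N × N

/-- The value asked for by a query. -/
noncomputable def ans (ν : ℝ) (p : (Desc × List ℕ) × Qry) : ℝ :=
  cond (Nat.beq p.2.1.2.2.1 0) (cond (Nat.beq p.2.1.2.2.2 0)
    (cond (Nat.beq p.2.2.1 0)
      (cond (Nat.beq p.2.1.2.1 0)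
        (-val (divN 3 (2 ^ (Encodable.encode p.1.2 + 3)))
          * iteratedDeriv (p.2.1.1 + 2) ramp (val p.2.2.2.1)) 0)
      (cond (Nat.beq p.2.2.1 1)
        (iteratedDeriv (p.2.1.1 + 1) psi (val p.2.2.2.1)
            * iteratedDeriv p.2.1.2.1 (gper (theta p.1.1)) (val p.2.2.2.2.1)
          - ν * (iteratedDeriv p.2.1.1 psi (val p.2.2.2.1)
            * iteratedDeriv (p.2.1.2.1 + 2) (gper (theta p.1.1)) (val p.2.2.2.2.1))) 0)) 0) 0

theorem cfam_ans {ν : ℝ} (hν : IsComputableReal ν) : CFam (ans ν) := by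
  have hg := cfam_gper abs_theta_le cfam_theta
  have he : Primrec fun p : (Desc × List ℕ) × Qry => Encodable.encode p.1.2 :=
    Primrec.encode.comp (by fun_prop)
  have h0 : CFam fun p : (Desc × List ℕ) × Qry => -val (divN 3 (2 ^ (Encodable.encode p.1.2 + 3)))
      * iteratedDeriv (p.2.1.1 + 2) ramp (val p.2.2.2.1) :=
    (CFam.exact (p_divN (p_const 3) (p_pow (p_const 2) (p_add he (p_const 3))))).neg.mul
      (cfam_ramp.comp (f := fun p : (Desc × List ℕ) × Qry => (p.2.2.2.1, p.2.1.1 + 2))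
        (by fun_prop))
  have h1 : CFam fun p : (Desc × List ℕ) × Qry => iteratedDeriv (p.2.1.1 + 1) psi (val p.2.2.2.1)
      * iteratedDeriv p.2.1.2.1 (gper (theta p.1.1)) (val p.2.2.2.2.1) :=
    (cfam_psi.comp (f := fun p : (Desc × List ℕ) × Qry => (p.2.2.2.1, p.2.1.1 + 1))
      (by fun_prop)).mul
      (hg.comp (f := fun p : (Desc × List ℕ) × Qry => (p.1.1, p.2.2.2.2.1, p.2.1.2.1))
        (by fun_prop))
  have h2 : CFam fun p : (Desc × List ℕ) × Qry => iteratedDeriv p.2.1.1 psi (val p.2.2.2.1)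
      * iteratedDeriv (p.2.1.2.1 + 2) (gper (theta p.1.1)) (val p.2.2.2.2.1) :=
    (cfam_psi.comp (f := fun p : (Desc × List ℕ) × Qry => (p.2.2.2.1, p.2.1.1))
      (by fun_prop)).mul
      (hg.comp (f := fun p : (Desc × List ℕ) × Qry => (p.1.1, p.2.2.2.2.1, p.2.1.2.1 + 2))
        (by fun_prop))
  unfold ans
  exact CFam.cond (by fun_prop) (CFam.cond (by fun_prop) (CFam.cond (by fun_prop)
    (CFam.cond (by fun_prop) h0 CFam.zero)
    (CFam.cond (by fun_prop) (h1.sub ((CFam.of_real hν).mul h2)) CFam.zero)) CFam.zero) CFam.zero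

theorem val_ctr (j : ℕ) : val (divN 3 (2 ^ (j + 3))) = ctr j := by
  rw [val_divN _ _ (by positivity)]
  simp [ctr]

theorem mixed_eq_ans (ν : ℝ) (d : Desc) (w : List ℕ) (α : ℕ × ℕ × ℕ × ℕ) (i : Fin 3)
    (t x₁ x₂ x₃ ε : N) :
    mixed α (fun s y => frc ν (theta d) (ctr (Encodable.encode w)) s y i) (ratOf t)
      ![ratOf x₁, ratOf x₂, ratOf x₃] = ans ν ((d, w), (α, i.val, t, x₁, x₂, x₃, ε)) := by
  have hg : Sm (gper (theta d)) := contDiff_gper (abs_theta_le d)
  obtain ⟨a, b, c, e⟩ := α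
  unfold ans
  simp only [val_ctr]
  fin_cases i
  · simp only [Fin.zero_eta]
    rw [frc0, mixed_sep (sm_ramp _ 2) contDiff_const sm_zero sm_zero]
    cases c <;> cases e <;> cases b <;>
      simp [Nat.beq, sep, iteratedDeriv_const, iter_iter, val, iteratedDeriv_fun_neg,
        iteratedDeriv_const_mul_field]
  · simp only [Fin.mk_one]
    rw [frc1, mixed_sep (Sm.iter contDiff_psi 1) hg (contDiff_const.mul contDiff_psi)
      (Sm.iter hg 2), iter_iter, iter_iter]
    cases c <;> cases e <;>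
      simp [Nat.beq, sep, val, iteratedDeriv_fun_neg, iteratedDeriv_const_mul_field]
    ring
  · simp only [Fin.reduceFinMk]
    rw [frc2, mixed_zero]
    cases c <;> cases e <;> simp [Nat.beq]

theorem exists_code_curry {α β σ : Type} [Primcodable α] [Primcodable β] [Primcodable σ]
    {A : α × β → σ} (hA : Computable A) : ∃ C : α → Nat.Partrec.Code, Computable C ∧
      ∀ a b, Encodable.encode (A (a, b)) ∈ (C a).eval (Encodable.encode b) := by
  obtain ⟨c, hc⟩ := Nat.Partrec.Code.exists_code.1 hA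
  refine ⟨fun d => Nat.Partrec.Code.curry c (Encodable.encode d),
    (Nat.Partrec.Code.primrec₂_curry.comp (Primrec.const c) Primrec.encode).to_comp, ?_⟩
  intro a b
  rw [Nat.Partrec.Code.eval_curry, hc]
  simp

theorem enc3 (q : N) : @Encodable.encode _ Primcodable.toEncodable q = Encodable.encode q := rfl

theorem encQ (q : Qry) : @Encodable.encode _ Primcodable.toEncodable q = Encodable.encode q := rfl

theorem exists_compiler {ν : ℝ} (hν : IsComputableReal ν) :
    ∃ C : Desc × List ℕ → Nat.Partrec.Code, Computable C ∧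
      ∀ d w, Computes (C (d, w)) (frc ν (theta d) (ctr (Encodable.encode w))) := by
  obtain ⟨g, hg, h⟩ := cfam_ans hν
  have hA : Computable fun p : (Desc × List ℕ) × Qry => g (p, p.2.2.2.2.2.2.2.2.2) := by
    fun_prop
  obtain ⟨C, hC, hc⟩ := exists_code_curry hA
  refine ⟨C, hC, ?_⟩
  intro d w α i t x₁ x₂ x₃ ε _ hε
  refine ⟨g (((d, w), (α, i.val, t, x₁, x₂, x₃, ε)), ε.2.2), ?_, ?_⟩
  · have := hc (d, w) (α, i.val, t, x₁, x₂, x₃, ε)
    rw [enc3, encQ] at this
    exact this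
  · rw [mixed_eq_ans ν d w α i t x₁ x₂ x₃ ε]
    refine (h _ _).trans (inv_le_val ε ?_)
    unfold val
    exact_mod_cast hε

theorem main (ν : ℝ) (hν : 0 < ν) (hc : IsComputableReal ν) :
    ∃ (a : V) (O : Set (Fin 3 → UnitAddCircle))
      (f : (M : TM) → List (Fin (M.nS + 1)) → ℝ → V → V)
      (C : (ℕ × ℕ × ℕ × List Bool × List (List (ℕ × ℕ × ℕ))) × List ℕ → Nat.Partrec.Code)
      (T₀ : ℝ),
      IsOpen O ∧ Computable C ∧ 0 ≤ T₀ ∧
      (∀ M w, ContDiff ℝ (⊤ : ℕ∞) (fun z : ℝ × V => f M w z.1 z.2) ∧ (∀ t, Per (f M w t)) ∧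
        Computes (C (M.code, w.map Fin.val)) (f M w)) ∧
      (∀ M, ∃ P : ℝ, 0 < P ∧ ∀ w t x, T₀ ≤ t → f M w (t + P) x = f M w t x) ∧
      (∀ M w w' t x, T₀ ≤ t → f M w t x = f M w' t x) ∧
      ∀ M w, ∃ (u : ℝ → V → V) (p : ℝ → V → ℝ),
        ContDiff ℝ (⊤ : ℕ∞) (fun z : ℝ × V => u z.1 z.2) ∧
        ContDiff ℝ (⊤ : ℕ∞) (fun z : ℝ × V => p z.1 z.2) ∧
        (∀ T, 0 < T → IsClassical ν (f M w) T u p) ∧
        (∀ T, 0 < T → ∀ v q, IsClassical ν (f M w) T v q →
          ∀ t ∈ Icc 0 T, v t = u t ∧ q t = p t) ∧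
        (∃ X, IsTrajectory u a X) ∧
        ∀ X, IsTrajectory u a X →
          ((∃ t, 0 ≤ t ∧ (fun i => ((X t i : ℝ) : UnitAddCircle)) ∈ O) ↔ M.Halts w) := by
  obtain ⟨C, hC, hcomp⟩ := exists_compiler hc
  refine ⟨0, target, fun M w => frc ν (theta M.code) (ctr (Encodable.encode (w.map Fin.val))), C,
    1, isOpen_target, hC, zero_le_one,
    fun M w => ⟨contDiff_frc ν (abs_theta_le _) _, per_frc ν _ _, hcomp _ _⟩,
    fun M => ⟨2, two_pos, fun w t x ht => frc_periodic ν _ _ ht x⟩,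
    fun M w w' t x ht => frc_indep ν _ _ _ ht x, fun M w => ?_⟩
  refine ⟨vel (theta M.code) (ctr (Encodable.encode (w.map Fin.val))), fun _ _ => 0,
    contDiff_vel (abs_theta_le _) _, contDiff_const,
    fun T hT => isClassical_vel ν (abs_theta_le _) _ hT,
    fun T hT v q hv => classical_unique hν.le (isClassical_vel ν (abs_theta_le _) _ hT) hv,
    exists_trajectory _ _, fun X hX => ?_⟩
  have hb : 0 < bump (1 / 2) := bump_pos (by norm_num) (by norm_num)
  have hf : (0 : ℝ) < (Encodable.encode (w.map Fin.val)).factorial := by positivity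
  rw [hits_iff _ hX, gper_ctr, ← theta_pos_iff, mul_pos_iff_of_pos_right hb,
    div_pos_iff_of_pos_right hf]
  rw [gper_ctr]
  exact mul_nonneg (div_nonneg (theta_nonneg _ _) hf.le) hb.le

end Vale.Agent.P113
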