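import Vale.Agent.P113.Defs

/-! Uniqueness of classical solutions by the energy method. -/

open Set MeasureTheory

namespace Vale.Agent.P113

theorem pd_add {g h : V → ℝ} {x : V} (i : Fin 3) (hg : DifferentiableAt ℝ g x)
    (hh : DifferentiableAt ℝ h x) : pd i (fun y => g y + h y) x = pd i g x + pd i h x := by
  unfold pd
  rw [fderiv_fun_add hg hh]; rfl

theorem pd_sub {g h : V → ℝ} {x : V} (i : Fin 3) (hg : DifferentiableAt ℝ g x)
    (hh : DifferentiableAt ℝ h x) : pd i (fun y => g y - h y) x = pd i g x - pd i h x := by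
  unfold pd
  rw [fderiv_fun_sub hg hh]; rfl

theorem pd_mul {g h : V → ℝ} {x : V} (i : Fin 3) (hg : DifferentiableAt ℝ g x)
    (hh : DifferentiableAt ℝ h x) :
    pd i (fun y => g y * h y) x = pd i g x * h x + g x * pd i h x := by
  unfold pd
  rw [fderiv_fun_mul hg hh]
  simp only [add_apply, smul_apply, smul_eq_mul]
  ring

theorem pd_const (i : Fin 3) (c : ℝ) (x : V) : pd i (fun _ => c) x = 0 := by
  unfold pd
  simp

theorem pd_const_mul {g : V → ℝ} {x : V} (i : Fin 3) (c : ℝ) (hg : DifferentiableAt ℝ g x) :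
    pd i (fun y => c * g y) x = c * pd i g x := by
  rw [pd_mul i (differentiableAt_const c) hg, pd_const]
  ring

theorem pd_sum3 {g : Fin 3 → V → ℝ} {x : V} (i : Fin 3) (hg : ∀ j, DifferentiableAt ℝ (g j) x) :
    pd i (fun y => ∑ j, g j y) x = ∑ j, pd i (g j) x := by
  unfold pd
  rw [fderiv_fun_sum fun j _ => hg j]
  simp

theorem contDiff_pd {g : V → ℝ} {m n : WithTop ℕ∞} (i : Fin 3) (hg : ContDiff ℝ n g)
    (hmn : m + 1 ≤ n) : ContDiff ℝ m (pd i g) :=
  (hg.fderiv_right hmn).clm_apply contDiff_const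

theorem Per.pd {g : V → ℝ} (hg : Per g) (i : Fin 3) : Per (pd i g) := by
  intro x k
  unfold Vale.Agent.P113.pd
  rw [← fderiv_comp_add_right]
  congr 2
  ext y
  exact hg y k

theorem Per.apply {g : V → V} (hg : Per g) (i : Fin 3) : Per fun y => g y i := by
  intro x k
  simp only [hg x k]

theorem integral_div_zero (Φ : Fin 3 → V → ℝ) (hΦ : ∀ j, ContDiff ℝ 1 (Φ j))
    (hper : ∀ j, Per (Φ j)) : ∫ x in Icc (0 : V) 1, ∑ j, pd j (Φ j) x = 0 := by
  have hcont : Continuous fun x => ∑ j, pd j (Φ j) x :=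
    continuous_finsetSum _ fun j _ => (contDiff_pd (m := 0) j (hΦ j) (by norm_num)).continuous
  have h := integral_divergence_of_hasFDerivAt_off_countable' (0 : V) 1 zero_le_one Φ
    (fun j x => fderiv ℝ (Φ j) x) ∅ countable_empty (fun j => (hΦ j).continuous.continuousOn)
    (fun x _ j => ((hΦ j).differentiable (by norm_num) x).hasFDerivAt)
    (hcont.continuousOn.integrableOn_compact isCompact_Icc)
  refine h.trans (Finset.sum_eq_zero fun j _ => ?_)
  rw [sub_eq_zero]
  congr 1
  ext x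
  rw [← hper j (Fin.insertNth j ((0 : V) j) x) (Pi.single j 1)]
  congr 1
  ext k
  by_cases hk : k = j
  · subst hk; simp
  · obtain ⟨m, rfl⟩ := Fin.exists_succAbove_eq hk
    simp

theorem quad_bound (W : Fin 3 → ℝ) (U : Fin 3 → Fin 3 → ℝ) (K : ℝ) (hK : ∀ i j, |U i j| ≤ K) :
    -∑ i, ∑ j, W i * W j * U j i ≤ 3 * K * ∑ i, W i ^ 2 := by
  have h : ∀ i j, -(W i * W j * U j i) ≤ K * ((W i ^ 2 + W j ^ 2) / 2) := by
    intro i j
    have h1 : |W i * W j| ≤ (W i ^ 2 + W j ^ 2) / 2 := by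
      rw [abs_le]
      constructor <;> nlinarith [sq_nonneg (W i + W j), sq_nonneg (W i - W j)]
    calc -(W i * W j * U j i) ≤ |W i * W j * U j i| := neg_le_abs _
      _ = |U j i| * |W i * W j| := by rw [abs_mul, mul_comm]
      _ ≤ K * ((W i ^ 2 + W j ^ 2) / 2) :=
        mul_le_mul (hK j i) h1 (abs_nonneg _) ((abs_nonneg _).trans (hK j i))
  simp only [Fin.sum_univ_three]
  linarith [h 0 0, h 0 1, h 0 2, h 1 0, h 1 1, h 1 2, h 2 0, h 2 1, h 2 2]

/-- The energy inequality at a fixed time. -/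
theorem energy_ineq (ν : ℝ) (hν : 0 ≤ ν) (u v : V → V) (p q : V → ℝ) (a : V → V) (K : ℝ)
    (hu : ContDiff ℝ 2 u) (hv : ContDiff ℝ 2 v) (hp : ContDiff ℝ 1 p) (hq : ContDiff ℝ 1 q)
    (pu : Per u) (pv : Per v) (pp : Per p) (pq : Per q)
    (du : ∀ x, ∑ i, pd i (fun y => u y i) x = 0) (dv : ∀ x, ∑ i, pd i (fun y => v y i) x = 0)
    (ha : ∀ x i, a x i = -(∑ j, v x j * pd j (fun y => v y i) x
      - ∑ j, u x j * pd j (fun y => u y i) x) - (pd i q x - pd i p x)
      + ν * (∑ j, pd j (pd j fun y => v y i) x - ∑ j, pd j (pd j fun y => u y i) x))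
    (hac : Continuous a)
    (hK : ∀ x ∈ Icc (0 : V) 1, ∀ i j, |pd i (fun y => u y j) x| ≤ K) :
    ∫ x in Icc (0 : V) 1, ∑ i, (v x i - u x i) * a x i
      ≤ 3 * K * ∫ x in Icc (0 : V) 1, ∑ i, (v x i - u x i) ^ 2 := by
  have hui : ∀ i, ContDiff ℝ 2 fun y => u y i := fun i => contDiff_pi.1 hu i
  have hvi : ∀ i, ContDiff ℝ 2 fun y => v y i := fun i => contDiff_pi.1 hv i
  set w : Fin 3 → V → ℝ := fun i y => v y i - u y i with hw
  set π : V → ℝ := fun y => q y - p y with hπ
  have hwi : ∀ i, ContDiff ℝ 2 (w i) := fun i => (hvi i).sub (hui i)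
  have hw1 : ∀ i, ContDiff ℝ 1 (w i) := fun i => (hwi i).of_le (by norm_num)
  have hv1 : ∀ i, ContDiff ℝ 1 fun y => v y i := fun i => (hvi i).of_le (by norm_num)
  have hdw : ∀ i j, ContDiff ℝ 1 (pd j (w i)) := fun i j => contDiff_pd j (hwi i) (by norm_num)
  have hπ1 : ContDiff ℝ 1 π := hq.sub hp
  have pw : ∀ i, Per (w i) := fun i x k => by simp only [hw, pu x k, pv x k]
  have pπ : Per π := fun x k => by simp only [hπ, pp x k, pq x k]
  set Φ : Fin 3 → V → ℝ := fun j y => (-(1 / 2) * ∑ i, w i y * w i y) * v y j - π y * w j y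
    + ν * ∑ i, w i y * pd j (w i) y with hΦ
  have hΦ1 : ∀ j, ContDiff ℝ 1 (Φ j) := fun j =>
    (((contDiff_const.mul (ContDiff.sum fun i _ => (hw1 i).mul (hw1 i))).mul (hv1 j)).sub
      (hπ1.mul (hw1 j))).add (contDiff_const.mul (ContDiff.sum fun i _ => (hw1 i).mul (hdw i j)))
  have pΦ : ∀ j, Per (Φ j) := by
    intro j x k
    simp only [hΦ, pw _ x k, pπ x k, pv x k, (pw _).pd j x k]
  have hdiv := integral_div_zero Φ hΦ1 pΦ
  have d1 : ∀ {g : V → ℝ}, ContDiff ℝ 1 g → ∀ x, DifferentiableAt ℝ g x :=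
    fun hg x => hg.differentiable (by norm_num) x
  have d2 : ∀ {g : V → ℝ}, ContDiff ℝ 2 g → ∀ x, DifferentiableAt ℝ g x :=
    fun hg x => hg.differentiable (by norm_num) x
  have hpdw : ∀ i j, pd j (w i) = fun x => pd j (fun y => v y i) x - pd j (fun y => u y i) x := by
    intro i j
    ext x
    exact pd_sub j (d2 (hvi i) x) (d2 (hui i) x)
  have hpdww : ∀ i j x, pd j (pd j (w i)) x
      = pd j (pd j fun y => v y i) x - pd j (pd j fun y => u y i) x := by
    intro i j x
    rw [hpdw]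
    exact pd_sub j (d1 (contDiff_pd j (hvi i) (by norm_num)) x)
      (d1 (contDiff_pd j (hui i) (by norm_num)) x)
  have hpdΦ : ∀ j x, pd j (Φ j) x =
      (-(1 / 2) * ∑ i, (pd j (w i) x * w i x + w i x * pd j (w i) x)) * v x j
        + (-(1 / 2) * ∑ i, w i x * w i x) * pd j (fun y => v y j) x
        - (pd j π x * w j x + π x * pd j (w j) x)
        + ν * ∑ i, (pd j (w i) x * pd j (w i) x + w i x * pd j (pd j (w i)) x) := by
    intro j x
    have s1 : ContDiff ℝ 1 fun y => ∑ i, w i y * w i y :=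
      ContDiff.sum fun i _ => (hw1 i).mul (hw1 i)
    have s2 : ContDiff ℝ 1 fun y => ∑ i, w i y * pd j (w i) y :=
      ContDiff.sum fun i _ => (hw1 i).mul (hdw i j)
    simp only [hΦ]
    rw [pd_add j (d1 (((contDiff_const.mul s1).mul (hv1 j)).sub (hπ1.mul (hw1 j))) x)
        (d1 (contDiff_const.mul s2) x),
      pd_sub j (d1 ((contDiff_const.mul s1).mul (hv1 j)) x) (d1 (hπ1.mul (hw1 j)) x),
      pd_mul j (d1 (contDiff_const.mul s1) x) (d1 (hv1 j) x),
      pd_mul j (d1 hπ1 x) (d1 (hw1 j) x), pd_const_mul j _ (d1 s1 x), pd_const_mul j _ (d1 s2 x),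
      pd_sum3 j fun i => d1 ((hw1 i).mul (hw1 i)) x,
      pd_sum3 j fun i => d1 ((hw1 i).mul (hdw i j)) x]
    simp only [pd_mul j (d1 (hw1 _) x) (d1 (hw1 _) x), pd_mul j (d1 (hw1 _) x) (d1 (hdw _ j) x)]
  have hpt : ∀ x ∈ Icc (0 : V) 1, ∑ i, (v x i - u x i) * a x i
      ≤ ∑ j, pd j (Φ j) x + 3 * K * ∑ i, (v x i - u x i) ^ 2 := by
    intro x hx
    have hq1 := quad_bound (fun i => v x i - u x i) (fun j i => pd j (fun y => u y i) x) K
      (fun i j => hK x hx i j)
    have hpdπ : ∀ j, pd j π x = pd j q x - pd j p x := fun j => pd_sub j (d1 hq x) (d1 hp x)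
    have hid : ∑ i, (v x i - u x i) * a x i = ∑ j, pd j (Φ j) x
        - ν * ∑ j, ∑ i, pd j (w i) x ^ 2
        - ∑ i, ∑ j, (v x i - u x i) * (v x j - u x j) * pd j (fun y => u y i) x := by
      have h1 := du x
      have h2 := dv x
      simp only [hpdΦ, hpdww, hpdπ, ha]
      simp only [hpdw]
      simp only [hw, Fin.sum_univ_three] at h1 h2 ⊢
      linear_combination (1 / 2 * ((v x 0 - u x 0) ^ 2 + (v x 1 - u x 1) ^ 2
        + (v x 2 - u x 2) ^ 2) + π x) * h2 - π x * h1
    have hnn : 0 ≤ ν * ∑ j, ∑ i, pd j (w i) x ^ 2 := by positivity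
    linarith
  have c1 : Continuous fun x => ∑ i, (v x i - u x i) * a x i :=
    continuous_finsetSum _ fun i _ =>
      (hwi i).continuous.mul ((continuous_apply i).comp hac)
  have c2 : Continuous fun x => ∑ j, pd j (Φ j) x :=
    continuous_finsetSum _ fun j _ => (contDiff_pd (m := 0) j (hΦ1 j) (by norm_num)).continuous
  have c3 : Continuous fun x => ∑ i, (v x i - u x i) ^ 2 :=
    continuous_finsetSum _ fun i _ => (hwi i).continuous.pow 2
  have i2 := c2.continuousOn.integrableOn_compact (μ := volume) (isCompact_Icc (a := (0 : V)) (b := 1))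
  have i3 := c3.continuousOn.integrableOn_compact (μ := volume) (isCompact_Icc (a := (0 : V)) (b := 1))
  calc ∫ x in Icc (0 : V) 1, ∑ i, (v x i - u x i) * a x i
      ≤ ∫ x in Icc (0 : V) 1, (∑ j, pd j (Φ j) x + 3 * K * ∑ i, (v x i - u x i) ^ 2) :=
        setIntegral_mono_on (c1.continuousOn.integrableOn_compact isCompact_Icc)
          (i2.add (i3.const_mul _)) measurableSet_Icc hpt
    _ = _ := by
        rw [integral_add i2 (i3.const_mul _), hdiv, zero_add, integral_const_mul]

theorem CtsOn.slice {T : ℝ} {F : ℝ → V → ℝ} (h : CtsOn T F) {t : ℝ} (ht : t ∈ Icc 0 T) :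
    Continuous (F t) := by
  have : ContinuousOn (fun x : V => F t x) univ :=
    h.comp (f := fun x : V => (t, x)) (by fun_prop) fun x _ => ⟨ht, mem_univ _⟩
  exact continuousOn_univ.1 this

theorem CtsOn.bound {T : ℝ} {F : ℝ → V → ℝ} (h : CtsOn T F) :
    ∃ K, ∀ t ∈ Icc 0 T, ∀ x ∈ Icc (0 : V) 1, |F t x| ≤ K := by
  have hc : IsCompact (Icc (0 : ℝ) T ×ˢ Icc (0 : V) 1) := isCompact_Icc.prod isCompact_Icc
  obtain ⟨K, hK⟩ := hc.exists_bound_of_continuousOn
    (h.mono (prod_mono subset_rfl (subset_univ _)))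
  exact ⟨K, fun t ht x hx => hK (t, x) ⟨ht, hx⟩⟩

theorem CtsOn.integral {T : ℝ} {F : ℝ → V → ℝ} (h : CtsOn T F) :
    ContinuousOn (fun t => ∫ x in Icc (0 : V) 1, F t x) (Icc 0 T) := by
  rw [continuousOn_iff_continuous_domRestrict]
  have : Continuous (Function.uncurry fun (t : Icc (0 : ℝ) T) (x : V) => F t x) :=
    h.comp_continuous (f := fun z : Icc (0 : ℝ) T × V => ((z.1 : ℝ), z.2)) (by fun_prop)
      fun z => ⟨z.1.2, mem_univ _⟩
  exact continuous_parametric_integral_of_continuous this isCompact_Icc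

theorem eq_zero_of_per {g : V → ℝ} (hg : Continuous g) (pg : Per g) (h0 : ∀ x, 0 ≤ g x)
    (hint : ∫ x in Icc (0 : V) 1, g x = 0) (x : V) : g x = 0 := by
  have h1 := (setIntegral_eq_zero_iff_of_nonneg_ae (Filter.Eventually.of_forall h0)
    (hg.continuousOn.integrableOn_compact isCompact_Icc)).1 hint
  have h2 : EqOn g 0 (Icc (0 : V) 1) := by
    apply Measure.eqOn_of_ae_eq h1 hg.continuousOn continuousOn_const
    rw [← pi_univ_Icc, interior_pi_set finite_univ, closure_pi_set]
    intro y hy i hi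
    beta_reduce
    rw [closure_interior_Icc (by simp)]
    exact hy i hi
  have h3 := pg (fun i => Int.fract (x i)) fun i => ⌊x i⌋
  have h4 : ((fun i => Int.fract (x i)) + fun i => ((⌊x i⌋ : ℤ) : ℝ)) = x := by
    ext i
    simp
  rw [h4] at h3
  rw [h3]
  exact h2 ⟨fun i => Int.fract_nonneg _, fun i => (Int.fract_lt_one _).le⟩

theorem velocity_unique {ν : ℝ} (hν : 0 ≤ ν) {f : ℝ → V → V} {T : ℝ} {u v : ℝ → V → V}
    {p q : ℝ → V → ℝ} (hu : IsClassical ν f T u p) (hv : IsClassical ν f T v q) :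
    ∀ t ∈ Icc 0 T, v t = u t := by
  choose K₀ hK₀ using fun z : Fin 3 × Fin 3 => (hu.ux_cts z.1 z.2).bound
  set K : ℝ := ∑ z, |K₀ z| with hKdef
  have hK : ∀ t ∈ Icc 0 T, ∀ x ∈ Icc (0 : V) 1, ∀ i j, |pd i (fun y => u t y j) x| ≤ K := by
    intro t ht x hx i j
    refine (hK₀ (j, i) t ht x hx).trans ((le_abs_self _).trans ?_)
    exact Finset.single_le_sum (f := fun z => |K₀ z|) (fun z _ => abs_nonneg _) (Finset.mem_univ _)
  set a : ℝ → V → V := fun t x i => derivWithin (fun s => v s x i) (Icc 0 T) t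
    - derivWithin (fun s => u s x i) (Icc 0 T) t with ha
  set F : ℝ → V → ℝ := fun t x => ∑ i, (v t x i - u t x i) ^ 2 with hF
  set F' : ℝ → V → ℝ := fun t x => 2 * ∑ i, (v t x i - u t x i) * a t x i with hF'
  have cF : CtsOn T F :=
    continuousOn_finsetSum _ fun i _ => ((hv.u_cts i).sub (hu.u_cts i)).pow 2
  have ca : ∀ i, CtsOn T fun t x => a t x i := fun i => (hv.ut_cts i).sub (hu.ut_cts i)
  have cF' : CtsOn T F' :=
    continuousOn_const.mul (continuousOn_finsetSum _ fun i _ =>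
      ((hv.u_cts i).sub (hu.u_cts i)).mul (ca i))
  obtain ⟨B, hB⟩ := cF'.bound
  set E : ℝ → ℝ := fun t => ∫ x in Icc (0 : V) 1, F t x with hE
  have hEd : ∀ t ∈ Ioo 0 T, HasDerivAt E (∫ x in Icc (0 : V) 1, F' t x) t := by
    intro t ht
    have hn : Ioo 0 T ∈ nhds t := Ioo_mem_nhds ht.1 ht.2
    refine (hasDerivAt_integral_of_dominated_loc_of_deriv_le (μ := volume.restrict (Icc (0 : V) 1))
      (bound := fun _ => B) hn ?_ ?_ ?_ ?_ ?_ ?_).2
    · filter_upwards [hn] with s hs using (cF.slice (Ioo_subset_Icc_self hs)).aestronglyMeasurable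
    · exact (cF.slice (Ioo_subset_Icc_self ht)).continuousOn.integrableOn_compact isCompact_Icc
    · exact (cF'.slice (Ioo_subset_Icc_self ht)).aestronglyMeasurable
    · filter_upwards [ae_restrict_mem measurableSet_Icc] with x hx s hs
      exact hB s (Ioo_subset_Icc_self hs) x hx
    · exact continuous_const.continuousOn.integrableOn_compact isCompact_Icc
    · refine Filter.Eventually.of_forall fun x s hs => ?_
      have hs' : Icc 0 T ∈ nhds s := Icc_mem_nhds hs.1 hs.2
      have h1 : ∀ i, HasDerivAt (fun r => v r x i - u r x i) (a s x i) s := fun i =>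
        (((hv.u_diff_t i x s (Ioo_subset_Icc_self hs)).hasDerivWithinAt).hasDerivAt hs').sub
          (((hu.u_diff_t i x s (Ioo_subset_Icc_self hs)).hasDerivWithinAt).hasDerivAt hs')
      have h2 := HasDerivAt.fun_sum (u := Finset.univ) fun i _ => (h1 i).fun_pow 2
      convert h2 using 1
      simp only [hF', Finset.mul_sum]
      apply Finset.sum_congr rfl
      intro i _
      norm_num
      ring
  have hEle : ∀ t ∈ Ioo 0 T, ∫ x in Icc (0 : V) 1, F' t x ≤ 6 * K * E t := by
    intro t ht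
    have ht' := Ioo_subset_Icc_self ht
    have := energy_ineq ν hν (u t) (v t) (p t) (q t) (a t) K (hu.u_diff_x t ht')
      (hv.u_diff_x t ht') (hu.p_diff_x t ht') (hv.p_diff_x t ht') (hu.u_per t ht')
      (hv.u_per t ht') (hu.p_per t ht') (hv.p_per t ht') (hu.div_free t ht') (hv.div_free t ht')
      (fun x i => by
        have h1 := hu.momentum t ht' x i
        have h2 := hv.momentum t ht' x i
        simp only [ha]
        linarith)
      (continuous_pi fun i => (ca i).slice ht') (hK t ht')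
    simp only [hF', hE, hF]
    rw [integral_const_mul]
    linarith
  have hanti : AntitoneOn (fun t => Real.exp (-(6 * K) * t) * E t) (Icc 0 T) := by
    have hd : ∀ t ∈ Ioo 0 T, HasDerivAt (fun t => Real.exp (-(6 * K) * t) * E t)
        (Real.exp (-(6 * K) * t) * (-(6 * K)) * E t
          + Real.exp (-(6 * K) * t) * ∫ x in Icc (0 : V) 1, F' t x) t := by
      intro t ht
      have h1 : HasDerivAt (fun t => Real.exp (-(6 * K) * t))
          (Real.exp (-(6 * K) * t) * (-(6 * K))) t := by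
        simpa using ((hasDerivAt_id t).const_mul (-(6 * K))).exp
      exact h1.mul (hEd t ht)
    apply antitoneOn_of_deriv_nonpos (convex_Icc 0 T)
    · exact (by fun_prop : Continuous fun t => Real.exp (-(6 * K) * t)).continuousOn.mul
        cF.integral
    · rw [interior_Icc]
      exact fun t ht => (hd t ht).differentiableAt.differentiableWithinAt
    · rw [interior_Icc]
      intro t ht
      rw [(hd t ht).deriv]
      have := mul_le_mul_of_nonneg_left (hEle t ht) (Real.exp_pos (-(6 * K) * t)).le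
      linarith
  intro t ht
  have hE0 : E 0 = 0 := by simp [hE, hF, hu.at_rest, hv.at_rest]
  have h1 := hanti (left_mem_Icc.2 (ht.1.trans ht.2)) ht ht.1
  simp only [hE0, mul_zero] at h1
  have hFnn : ∀ x, 0 ≤ F t x := fun x => Finset.sum_nonneg fun i _ => sq_nonneg _
  have h2 : 0 ≤ E t := integral_nonneg hFnn
  have h3 : E t = 0 := by
    have := Real.exp_pos (-(6 * K) * t)
    nlinarith
  have pF : Per (F t) := fun x k => by simp only [hF, hu.u_per t ht x k, hv.u_per t ht x k]
  ext x i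
  have h4 := eq_zero_of_per (cF.slice ht) pF hFnn h3 x
  have h5 := (Finset.sum_eq_zero_iff_of_nonneg fun i _ => sq_nonneg _).1 h4 i (Finset.mem_univ i)
  exact sub_eq_zero.1 (pow_eq_zero_iff (two_ne_zero) |>.1 h5)

theorem classical_unique {ν : ℝ} (hν : 0 ≤ ν) {f : ℝ → V → V} {T : ℝ} {u v : ℝ → V → V}
    {p q : ℝ → V → ℝ} (hu : IsClassical ν f T u p) (hv : IsClassical ν f T v q) :
    ∀ t ∈ Icc 0 T, v t = u t ∧ q t = p t := by
  have hvu := velocity_unique hν hu hv
  intro t ht
  refine ⟨hvu t ht, ?_⟩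
  have hgrad : ∀ x i, pd i (q t) x = pd i (p t) x := by
    intro x i
    have h1 := hu.momentum t ht x i
    have h2 := hv.momentum t ht x i
    have h3 : derivWithin (fun s => v s x i) (Icc 0 T) t
        = derivWithin (fun s => u s x i) (Icc 0 T) t :=
      derivWithin_congr (fun s hs => by simp only [hvu s hs]) (by simp only [hvu t ht])
    rw [h3, hvu t ht] at h2
    linarith
  have dp := (hu.p_diff_x t ht).differentiable (by norm_num)
  have dq := (hv.p_diff_x t ht).differentiable (by norm_num)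
  have hconst : ∀ x y, (q t - p t) x = (q t - p t) y := by
    apply is_const_of_fderiv_eq_zero (𝕜 := ℝ) (dq.sub dp)
    intro x
    rw [fderiv_sub (dq x) (dp x), sub_eq_zero]
    apply ContinuousLinearMap.coe_injective
    apply (Pi.basisFun ℝ (Fin 3)).ext
    intro i
    simpa [pd] using hgrad x i
  have hint : ∫ x in Icc (0 : V) 1, (q t - p t) x = 0 := by
    simp only [Pi.sub_apply]
    rw [integral_sub ((hv.p_cts.slice ht).continuousOn.integrableOn_compact isCompact_Icc)
      ((hu.p_cts.slice ht).continuousOn.integrableOn_compact isCompact_Icc),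
      hu.p_mean t ht, hv.p_mean t ht, sub_zero]
  ext x
  have h1 : (fun y => (q t - p t) y) = fun _ => (q t - p t) x := funext fun y => hconst y x
  rw [h1, setIntegral_const] at hint
  have hvol : (volume : Measure V).real (Icc (0 : V) 1) = 1 := by
    simp [Measure.real, Real.volume_Icc_pi]
  rw [hvol, one_smul] at hint
  exact sub_eq_zero.1 hint

end Vale.Agent.P113
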